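import Vale.Agent.P275MB.Res

/-!
P275 (helper16): isomorphisms, the points of the moduli spaces, scaling.
-/

set_option linter.all false

open scoped Topology Matrix.Norms.Operator ContDiff ComplexOrder
open Set Filter Metric Matrix
open Vale.Agent.P281Z.Hm Vale.Agent.P275GC Vale.Agent.P275GC.At Vale.Agent.P275MO
open Vale.Agent.P275NA (Fm Cy Mn Mr FrAt degS cvS)
open Vale.Agent.P275KR (Sp)

noncomputable section

namespace Vale.Agent.P275MB

variable {C : Type} [TopologicalSpace C] {n k : ℕ} {A : At C} {l : Cy A ℂ} {i j : Fin A.N} {w : ℂ}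
  {z z' z'' : Dat C A.N n} {φ ψ : Fm A (Mn n)} {h h' : Mn n} {x : C} {S S' : Fm A (Sp n)}
  {r r' : ℝ} {h1 : 1 < r} {h2 : r ≤ A.R} {H : Subalgebra ℂ (Mn n)}

/-! ### the category -/

theorem dmul {f g : ℂ → Mn n} (hf : AnalyticAt ℂ f w) (hg : AnalyticAt ℂ g w) :
    deriv (fun y => f y * g y) w = deriv f w * g w + f w * deriv g w :=
  (hf.differentiableAt.hasDerivAt.mul hg.differentiableAt.hasDerivAt).deriv

theorem dconst (c : Mn n) (w : ℂ) : deriv (fun _ : ℂ => c) w = 0 := deriv_const w c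

theorem hl_of {F : Type} [NormedAddCommGroup F] [NormedSpace ℂ F] {u : Fm A F}
    (h : ∀ i, ∀ w ∈ ball (0 : ℂ) A.R, AnalyticAt ℂ (u i) w) : A.Hl u :=
  fun i w hw => (h i w hw).differentiableAt.differentiableWithinAt

theorem hom_smul_one (z : Dat C A.N n) (c : ℂ) : Hom A z z fun _ _ => c • 1 :=
  ⟨rfl, rfl, fun _ => differentiableOn_const _, fun _ _ _ _ => by simp, fun _ w _ => by
    rw [dconst]; simp⟩

theorem hom_one (z : Dat C A.N n) : Hom A z z fun _ _ => 1 :=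
  ⟨rfl, rfl, fun _ => differentiableOn_const _, fun _ _ _ _ => by simp, fun _ w _ => by
    rw [dconst]; simp⟩

theorem Hom.comp (f : Hom A z z' φ) (f' : Hom A z' z'' ψ) :
    Hom A z z'' fun i w => ψ i w * φ i w := by
  refine ⟨f'.lam.trans f.lam, f'.x.trans f.x, fun i => (f'.hol i).mul (f.hol i),
    fun i j w a => by rw [mul_assoc, f.law i j w a, ← mul_assoc, f'.law i j w a, mul_assoc],
    fun i w a => ?_⟩
  have b := congrArg (ψ i w * ·) (f.con i w a)
  have c := congrArg (· * φ i w) (f'.con i w (f.x ▸ a))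
  rw [dmul (f'.hol.an a.1 i) (f.hol.an a.1 i)]
  simp only [mul_add, add_mul, smul_add, mul_smul_comm, smul_mul_assoc, mul_assoc, f.lam] at b c ⊢
  linear_combination (norm := module) b + c

theorem Hom.smul (f : Hom A z z' φ) (c : ℂ) : Hom A z z' fun i w => c • φ i w := by
  simpa using Hom.comp f (hom_smul_one z' c)

theorem Hom.sub (f : Hom A z z' φ) (f' : Hom A z z' ψ) : Hom A z z' fun i w => φ i w - ψ i w := by
  refine ⟨f.lam, f.x, fun i => (f.hol i).sub (f'.hol i),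
    fun i j w a => by rw [sub_mul, mul_sub, f.law i j w a, f'.law i j w a], fun i w a => ?_⟩
  have e : deriv (fun w => φ i w - ψ i w) w = deriv (φ i) w - deriv (ψ i) w :=
    deriv_fun_sub (f.hol.an a.1 i).differentiableAt (f'.hol.an a.1 i).differentiableAt
  rw [e, sub_mul, mul_sub, ← f.con i w a, ← f'.con i w a, smul_sub]
  abel

theorem Hom.inv (f : Hom A z z' φ) (d : ∀ i, ∀ w ∈ ball (0 : ℂ) A.R, (φ i w).det ≠ 0) :
    Hom A z' z fun i w => (φ i w)⁻¹ := by
  refine ⟨f.lam.symm, f.x.symm, hl_of fun i w a => an_inv (f.hol.an a i) (d i w a),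
    fun i j w a => ?_, fun i w a => ?_⟩
  · have u := (d i w a.1).isUnit
    have v := (d j _ (tr_ball a)).isUnit
    rw [← mul_nonsing_inv_cancel_right _ (z'.g i j w) v, ← f.law i j w a, mul_assoc,
      nonsing_inv_mul_cancel_left _ _ u]
  · have u := (d i w a.1).isUnit
    have b := congrArg (fun X => (φ i w)⁻¹ * X * (φ i w)⁻¹) (f.con i w (f.x ▸ a))
    rw [deriv_minv (f.hol.an a.1 i) (d i w a.1), f.lam]
    simp only [mul_add, add_mul, mul_smul_comm, smul_mul_assoc, mul_assoc, mul_nonsing_inv _ u,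
      mul_one, nonsing_inv_mul_cancel_left _ _ u, smul_neg] at b ⊢
    linear_combination (norm := module) -b

/-- maps commute with the residues -/
theorem Hom.pole (g : Good A l z) (g' : Good A l z') (f : Hom A z z' φ)
    (hx : z.x ∈ (A.e i).source) : z'.σ i * z'.R * (z'.σ i)⁻¹ * φ i (A.e i z.x) =
      φ i (A.e i z.x) * (z.σ i * z.R * (z.σ i)⁻¹) := by
  have an := f.hol.an (map_src hx) i
  have c : Tendsto (φ i) (𝓝[≠] (A.e i z.x)) (𝓝 (φ i (A.e i z.x))) :=
    an.continuousAt.mono_left nhdsWithin_le_nhds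
  have p := g'.pole i (f.x ▸ hx)
  rw [f.x] at p
  have q : Tendsto (fun w => (w - A.e i z.x) • z.lam • deriv (φ i) w) (𝓝[≠] (A.e i z.x))
      (𝓝 ((A.e i z.x - A.e i z.x) • z.lam • deriv (φ i) (A.e i z.x))) :=
    ((continuousAt_id.sub continuousAt_const).smul
      (an.deriv.continuousAt.const_smul z.lam)).mono_left nhdsWithin_le_nhds
  have e := tendsto_nhds_unique_of_eventuallyEq (q.add (p.mul c)) (c.mul (g.pole i hx))
    ((off_ev hx).mono fun w a => by
      simp only [smul_mul_assoc, mul_smul_comm, ← smul_add, f.con i w a])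
  rwa [sub_self, zero_smul, zero_add] at e

theorem isoBy_refl (z : Dat C A.N n) : IsoBy A z z (fun _ _ => 1) 1 :=
  ⟨hom_one z, fun _ _ _ => by simp, fun _ _ => by simp⟩

theorem IsoBy.det_h (g : Good A l z) (f : IsoBy A z z' φ h) : h.det ≠ 0 := by
  obtain ⟨i, a, -⟩ := A.cov z.x
  have := congrArg det (f.fr i a)
  rw [Matrix.det_mul, Matrix.det_mul] at this
  exact right_ne_zero_of_mul (this ▸ mul_ne_zero (f.det i _ (map_src a)) (g.fr i a))

theorem IsoBy.symm (g : Good A l z) (f : IsoBy A z z' φ h) :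
    IsoBy A z' z (fun i w => (φ i w)⁻¹) h⁻¹ := by
  refine ⟨Hom.inv f.toHom f.det, fun i w a => (isUnit_nonsing_inv_det _ (f.det i w a).isUnit).ne_zero,
    fun i a => ?_⟩
  rw [f.x] at a ⊢
  rw [← mul_nonsing_inv_cancel_right _ (z'.σ i) (IsoBy.det_h g f).isUnit, ← f.fr i a, mul_assoc,
    nonsing_inv_mul_cancel_left _ _ (f.det i _ (map_src a)).isUnit]

theorem IsoBy.trans (f : IsoBy A z z' φ h) (f' : IsoBy A z' z'' ψ h') :
    IsoBy A z z'' (fun i w => ψ i w * φ i w) (h' * h) := by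
  refine ⟨Hom.comp f.toHom f'.toHom, fun i w a => by
    rw [Matrix.det_mul]; exact mul_ne_zero (f'.det i w a) (f.det i w a), fun i a => ?_⟩
  have := f'.fr i (f.x ▸ a)
  rw [f.x] at this
  rw [mul_assoc, f.fr i a, ← mul_assoc, this, mul_assoc]

theorem IsoBy.smul (f : IsoBy A z z' φ h) {c : ℂ} (hc : c ≠ 0) :
    IsoBy A z z' (fun i w => c • φ i w) (c • h) :=
  ⟨Hom.smul f.toHom c, fun i w a => by
    rw [det_smul]; exact mul_ne_zero (pow_ne_zero _ hc) (f.det i w a),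
    fun i a => by rw [smul_mul_assoc, f.fr i a, mul_smul_comm]⟩

/-- an invertible map is an isomorphism for a unique change of the frame -/
theorem Hom.isoBy (g : Good A l z) (g' : Good A l z') (f : Hom A z z' φ)
    (d : ∀ i, ∀ w ∈ ball (0 : ℂ) A.R, (φ i w).det ≠ 0) (hx : z.x ∈ (A.e i).source) :
    IsoBy A z z' φ ((z'.σ i)⁻¹ * φ i (A.e i z.x) * z.σ i) := by
  refine ⟨f, d, fun j a => ?_⟩
  have e := f.x
  rw [g.frc j i a hx, ← mul_assoc, f.law j i _ (mem_O a hx), tr_e a, g'.frc j i (e ▸ a) (e ▸ hx), e,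
    mul_assoc, mul_assoc, mul_assoc, mul_nonsing_inv_cancel_left _ _ (g'.fr i (e ▸ hx)).isUnit]

theorem IsoBy.h_eq (g' : Good A l z') (f : IsoBy A z z' φ h) (hx : z.x ∈ (A.e i).source) :
    h = (z'.σ i)⁻¹ * φ i (A.e i z.x) * z.σ i := by
  rw [mul_assoc, f.fr i hx, nonsing_inv_mul_cancel_left _ _ (g'.fr i (f.x ▸ hx)).isUnit]

theorem IsoBy.R (g : Good A l z) (g' : Good A l z') (f : IsoBy A z z' φ h) :
    z'.R = h * z.R * h⁻¹ := by
  obtain ⟨i, a, -⟩ := A.cov z.x
  have u := (g'.fr i (f.x ▸ a)).isUnit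
  have b := congrArg (fun X => (z'.σ i)⁻¹ * X * z.σ i) (Hom.pole g g' f.toHom a)
  simp only [mul_assoc, nonsing_inv_mul_cancel_left _ _ u, nonsing_inv_mul _ (g.fr i a).isUnit,
    mul_one] at b
  rw [← mul_assoc (φ i _), f.fr i a, nonsing_inv_mul_cancel_left _ _ u, mul_assoc,
    nonsing_inv_mul_cancel_left _ _ u] at b
  rw [← b, mul_nonsing_inv_cancel_right _ _ (IsoBy.det_h g f).isUnit]

theorem inv_mem_alg (hH : h ∈ H) (d : h.det ≠ 0) : h⁻¹ ∈ H := by
  let L : H →ₗ[ℂ] H := LinearMap.mulLeft ℂ (⟨h, hH⟩ : H)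
  haveI : FiniteDimensional ℂ H := FiniteDimensional.finiteDimensional_subalgebra H
  obtain ⟨y, hy⟩ := (LinearMap.injective_iff_surjective (f := L)).1 (fun a b e => Subtype.ext
    (((isUnit_iff_isUnit_det h).2 d.isUnit).mul_right_injective (congrArg Subtype.val e))) 1
  rw [inv_eq_right_inv (B := y.1) (congrArg Subtype.val hy)]
  exact y.2

/-! ### stability is invariant -/

theorem Stab.iso [T2Space C] (g : Good A l z) (g' : Good A l z') (f : Hom A z z' φ)
    (d : ∀ i, ∀ w ∈ ball (0 : ℂ) A.R, (φ i w).det ≠ 0) (s : Stab A l z') : Stab A l z := by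
  intro k S a b c e
  have fr : ∀ {i w} {t : ℂ → Mr n k}, w ∈ ball (0 : ℂ) A.R → FrAt (S i) t w →
      FrAt (fun y => (S i y).map (φ i y).mulVecLin) (fun y => φ i y * t y) w :=
    fun {i w t} hw ht => ⟨an_mul (f.hol.an hw i) ht.an, fun u v e => ht.inj
      (P275HK.inj_of_det (d i w hw) (by simpa only [mulVec_mulVec] using e)),
      ht.rg.mono fun y p => by rw [mulVecLin_mul, LinearMap.range_comp, p]⟩
  have c' : P275NA.Sub A z'.g k fun i w => (S i w).map (φ i w).mulVecLin :=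
    ⟨fun i w hw => (c.fr i w hw).elim fun _ ht => ⟨_, fr hw ht⟩, fun i j w p => by
      rw [c.tr i j w p, ← Submodule.map_comp, ← Submodule.map_comp, ← mulVecLin_mul,
        ← mulVecLin_mul, f.law i j w p]⟩
  have m := g'.cc.mtM
  have m' : A.MtM ∞ z.g fun i w => (φ i w)ᴴ * A.mtM z'.g i w * φ i w :=
    ⟨fun i w hw => (P275DG.cd_gr (m.sm.at hw i) (f.hol.an hw i)).contDiffWithinAt,
      fun i w hw => P275DG.pd_gr (m.pos i w hw) (P275HK.inj_of_det (d i w hw)), fun i j w p => by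
        have := congrArg (fun X => Xᴴ * A.mtM z'.g i w * X) (f.law i j w p)
        simp only [m.tr i j w p, conjTranspose_mul, mul_assoc] at this ⊢
        exact this.symm⟩
  have q : degS A z.g k S = degS A z'.g k fun i w => (S i w).map (φ i w).mulVecLin := by
    rw [degS, degS, P275DG.int_cvS g.cc g.cc.mtM m' c]
    refine congrArg (Real.pi⁻¹ * ·) (int_congr' fun i w hw => ?_)
    obtain ⟨t, ht⟩ := c.fr i w hw
    rw [P275DG.cvS_eq m' hw ht, P275DG.cvS_eq m hw (fr hw ht)]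
    refine P275DG.tc_congr (Eventually.of_forall fun y => ?_)
    simp only [P275DG.gr, conjTranspose_mul, Matrix.mul_assoc]
  rw [q]
  refine s k _ a b c' fun i w hw u hu p => ?_
  have hw' : w ∈ off A z.x i := f.x ▸ hw
  have an := f.hol.an hw.1 i
  have ai := an_mulVec (an_inv an (d i w hw.1)) hu
  have o : ∀ᶠ y in 𝓝 w, u y = φ i y *ᵥ ((φ i y)⁻¹ *ᵥ u y) :=
    eventually_of_mem (isOpen_ball.mem_nhds hw.1) fun y a => by
      rw [mulVec_mulVec, mul_nonsing_inv _ (d i y a).isUnit, one_mulVec]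
  refine ⟨_, e i w hw' _ ai ?_, ?_⟩
  · filter_upwards [p, isOpen_ball.mem_nhds hw.1] with y ⟨v, a, b⟩ hy
    rwa [← b, mulVecLin_apply, mulVec_mulVec, nonsing_inv_mul _ (d i y hy).isUnit, one_mulVec]
  · have t := congrArg (· *ᵥ ((φ i w)⁻¹ *ᵥ u w)) (f.con i w hw')
    rw [EventuallyEq.deriv_eq o, deriv_mulVec an ai, f.lam]
    simp only [mulVecLin_apply, mulVec_add, add_mulVec, mulVec_smul, smul_mulVec, smul_add,
      ← mulVec_mulVec, ← o.self_of_nhds] at t ⊢
    linear_combination (norm := module) -t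

/-! ### points of the moduli space -/

variable {τ : Ty n} {y y' y'' : Ob A l τ}

theorem Ob.ex (y : Ob A l τ) : ∃ (r : ℝ) (h1 : 1 < r) (h2 : r ≤ A.R),
    Good (A.res r h1 h2) l y.1 := by
  obtain ⟨⟨r, a, b, c, -⟩, -⟩ := y.2
  exact ⟨r, a, b, c⟩

theorem Ob.ex2 (y y' : Ob A l τ) : ∃ (r : ℝ) (h1 : 1 < r) (h2 : r ≤ A.R),
    Good (A.res r h1 h2) l y.1 ∧ Good (A.res r h1 h2) l y'.1 := by
  obtain ⟨r, a, b, c⟩ := Ob.ex y
  obtain ⟨r', a', b', c'⟩ := Ob.ex y'
  exact ⟨min r r', lt_min a a', (min_le_left _ _).trans b, Good.mono c _ (min_le_left _ _),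
    Good.mono c' _ (min_le_right _ _)⟩

theorem iso_refl (z : Dat C A.N n) : Iso A H z z :=
  ⟨A.R, A.hR, le_rfl, _, 1, one_mem _, isoBy_refl (A := A.res A.R A.hR le_rfl) z⟩

theorem Iso.symm (g : Good (A.res r h1 h2) l z) (f : Iso A H z z') : Iso A H z' z := by
  obtain ⟨r', a, b, φ, h, c, f⟩ := f
  have d := lt_min h1 a
  have g1 := Good.mono g d (min_le_left _ _)
  have f1 := IsoBy.mono f d (min_le_right _ _)
  exact ⟨_, d, _, _, _, inv_mem_alg c (IsoBy.det_h g1 f1), IsoBy.symm g1 f1⟩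

theorem Iso.trans (f : Iso A H z z') (f' : Iso A H z' z'') : Iso A H z z'' := by
  obtain ⟨r, a, b, φ, h, c, f⟩ := f
  obtain ⟨r', a', b', φ', h', c', f'⟩ := f'
  have d := lt_min a a'
  exact ⟨_, d, _, _, _, mul_mem c' c, IsoBy.trans (IsoBy.mono f d (min_le_left _ _))
    (IsoBy.mono f' d (min_le_right _ _))⟩

theorem iso_equiv : Equivalence fun y y' : Ob A l τ => Iso A τ.H y.1 y'.1 :=
  ⟨fun y => iso_refl y.1, fun {y _} f => by
    obtain ⟨r, a, b, c⟩ := Ob.ex y
    exact Iso.symm c f, Iso.trans⟩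

theorem pt_eq_iff : y.pt = y'.pt ↔ Iso A τ.H y.1 y'.1 :=
  Quot.eq.trans iso_equiv.eqvGen_iff

theorem pt_eq_iff' (g : Good (A.res r h1 h2) l y.1) (g' : Good (A.res r h1 h2) l y'.1) :
    y.pt = y'.pt ↔ ∃ φ h, h ∈ τ.H ∧ IsoBy (A.res r h1 h2) y.1 y'.1 φ h :=
  pt_eq_iff.trans (iso_iff' g g')

theorem R_of_pt (e : y.pt = y'.pt) : ∃ h ∈ τ.H, h.det ≠ 0 ∧ y'.1.R = h * y.1.R * h⁻¹ := by
  obtain ⟨r, a, b, g, g'⟩ := Ob.ex2 y y'
  obtain ⟨φ, h, c, f⟩ := (pt_eq_iff' g g').1 e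
  exact ⟨h, c, IsoBy.det_h g f, IsoBy.R (A := A.res r a b) g g' f⟩

theorem lam_pt (y : Ob A l τ) : y.pt.lam = y.1.lam := rfl

theorem x_pt (y : Ob A l τ) : y.pt.x = y.1.x := rfl

theorem η_pt (y : Ob A l τ) : y.pt.η = τ.η y.1.R := by
  obtain ⟨h, a, b, c⟩ := R_of_pt y.pt.pt_rep.symm
  rw [Mod.η, c, (τ.conj h a b _ y.2.2).2]

theorem cont_lam : Continuous (Mod.lam : Mod A l τ → ℂ) :=
  continuous_of_fam fun _ _ _ _ ⟨_, _, _, _, a, f⟩ => f.lam.continuousAt a

theorem cont_x : Continuous (Mod.x : Mod A l τ → C) :=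
  continuous_of_fam fun _ _ _ _ ⟨_, _, _, _, a, f⟩ => f.x.continuousAt a

theorem cont_η : Continuous (Mod.η : Mod A l τ → Fin τ.m → ℂ) :=
  continuous_of_fam fun _ _ _ _ ⟨_, _, _, _, a, f⟩ => by
    simp only [η_pt]
    exact τ.η.continuous_of_finiteDimensional.continuousAt.comp (f.R.continuousAt a)

theorem famAt_const {T : Type} [TopologicalSpace T] (y : Ob A l τ) (t : T) :
    FamAt A l (fun _ => y.1) t := by
  obtain ⟨r, a, b, c⟩ := Ob.ex y
  exact ⟨r, a, b, univ, univ_mem, famOn_const c _⟩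

/-- continuity of maps with a locally compact parameter -/
theorem continuous_of_fam2 {P Y : Type*} [TopologicalSpace P] [LocallyCompactSpace P]
    [TopologicalSpace Y] {f : P × Mod A l τ → Y}
    (h : ∀ (T : Type) [TopologicalSpace T] (F : T → Ob A l τ) (t : T) (p : P),
      FamAt A l (fun s => (F s).1) t → ContinuousAt (fun q : P × T => f (q.1, (F q.2).pt)) (p, t)) :
    Continuous f := by
  refine continuous_def.2 fun W hW => isOpen_iff_mem_nhds.2 fun ⟨p, m⟩ hp => ?_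
  obtain ⟨y, rfl⟩ := pt_surj m
  have a : ContinuousAt (fun q : P => f (q, y.pt)) p :=
    (h Unit (fun _ => y) () p (famAt_const y _)).comp (f := fun q : P => (q, ()))
      (continuousAt_id.prodMk continuousAt_const)
  obtain ⟨K, b, c, d⟩ := local_compact_nhds (a (hW.mem_nhds hp))
  have e : IsOpen {m : Mod A l τ | ∀ q ∈ K, f (q, m) ∈ W} := fun T _ F t hF hm =>
    d.eventually_forall_of_forall_eventually (P := fun s q => f (q, (F s).pt) ∈ W) fun q hq =>
      ((h T F t q hF).comp (f := Prod.swap) (x := (t, q)) continuous_swap.continuousAt).eventually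
        (hW.mem_nhds (hm q hq))
  exact mem_of_superset (prod_mem_nhds b (e.mem_nhds fun q hq => c hq)) fun q a => a.2 q.1 a.1

/-! ### scaling -/

theorem Good.smul (g : Good A l z) (s : ℂ) : Good A l (z.smul s) where
  cc := g.cc
  det := g.det
  hol i := (g.hol i).const_smul s
  tr i w a := (trace_smul s _).trans (by rw [g.tr i w a, smul_zero])
  law i j w a b := by
    obtain ⟨c, e⟩ := g.law i j w a b
    refine ⟨s * c, ?_⟩
    simp only [Dat.smul, smul_mul_assoc, mul_smul_comm, mul_smul]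
    linear_combination (norm := module) s • e
  fr := g.fr
  frc := g.frc
  pole i a := by
    simpa only [Dat.smul, smul_mul_assoc, mul_smul_comm, smul_comm s] using (g.pole i a).const_smul s

theorem invC_smul {s : ℂ} (hs : s ≠ 0) : InvC A (z.smul s) S ↔ InvC A z S :=
  forall₃_congr fun i w _ => forall₃_congr fun u _ _ => by
    simp only [Dat.smul, smul_mulVec, mul_smul, ← smul_add]
    exact Submodule.smul_mem_iff _ hs

theorem stab_smul {s : ℂ} (hs : s ≠ 0) : Stab A l (z.smul s) ↔ Stab A l z :=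
  forall₂_congr fun _ _ => forall₃_congr fun _ _ _ => imp_congr_left (invC_smul hs)

theorem Hom.scale (f : Hom A z z' φ) (s : ℂ) : Hom A (z.smul s) (z'.smul s) φ :=
  ⟨congrArg (s * ·) f.lam, f.x, f.hol, f.law, fun i w a => by
    simp only [Dat.smul, smul_mul_assoc, mul_smul_comm, mul_smul, ← smul_add, f.con i w a]⟩

theorem IsoBy.scale (f : IsoBy A z z' φ h) (s : ℂ) : IsoBy A (z.smul s) (z'.smul s) φ h :=
  ⟨Hom.scale f.toHom s, f.det, f.fr⟩

theorem IsOb.smul {q : Submodule ℂ (Mn n)} (o : IsOb A l q z) {s : ℂ} (hs : s ≠ 0) :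
    IsOb A l q (z.smul s) := by
  obtain ⟨⟨r, a, b, c, d⟩, e⟩ := o
  exact ⟨⟨r, a, b, Good.smul c s, (stab_smul hs).2 d⟩, q.smul_mem s e⟩

theorem smul_smul' (s t : ℂ) (z : Dat C A.N n) : (z.smul t).smul s = z.smul (s * t) := by
  simp only [Dat.smul, mul_assoc, smul_smul]

theorem smul_one' (z : Dat C A.N n) : z.smul 1 = z := by simp only [Dat.smul, one_mul, one_smul]

theorem FamOn.smul {T : Type} [TopologicalSpace T] {F : T → Dat C A.N n} {V : Set T} {c : T → ℂ}
    (f : FamOn A l F V) (hc : ContinuousOn c V) : FamOn A l (fun t => (F t).smul (c t)) V :=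
  ⟨fun t a => Good.smul (f.good t a) _, hc.mul f.lam, f.x, hc.smul f.R, f.g,
    fun i => (hc.comp continuousOn_fst fun _ a => a.1).smul (f.a i), f.σ⟩

/-- scaling of an object -/
def osc (s : ℂˣ) (y : Ob A l τ) : Ob A l τ := ⟨y.1.smul s, IsOb.smul y.2 s.ne_zero⟩

/-- scaling -/
def sc (s : ℂˣ) : Mod A l τ → Mod A l τ := Quot.map (osc s)
  fun _ _ ⟨r, a, b, φ, h, c, f⟩ => ⟨r, a, b, φ, h, c, IsoBy.scale f s⟩

theorem sc_pt (s : ℂˣ) (y : Ob A l τ) : sc s y.pt = (osc s y).pt := rfl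

theorem sc_one (m : Mod A l τ) : sc 1 m = m := by
  obtain ⟨y, rfl⟩ := pt_surj m
  exact congrArg Ob.pt (Subtype.ext (smul_one' y.1))

theorem sc_mul (s t : ℂˣ) (m : Mod A l τ) : sc (s * t) m = sc s (sc t m) := by
  obtain ⟨y, rfl⟩ := pt_surj m
  exact congrArg Ob.pt (Subtype.ext (smul_smul' s t y.1).symm)

theorem lam_sc (s : ℂˣ) (m : Mod A l τ) : (sc s m).lam = s * m.lam := by
  obtain ⟨y, rfl⟩ := pt_surj m
  rfl

theorem x_sc (s : ℂˣ) (m : Mod A l τ) : (sc s m).x = m.x := by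
  obtain ⟨y, rfl⟩ := pt_surj m
  rfl

theorem η_sc (s : ℂˣ) (m : Mod A l τ) : (sc s m).η = (s : ℂ) • m.η := by
  obtain ⟨y, rfl⟩ := pt_surj m
  rw [sc_pt, η_pt, η_pt]
  exact map_smul τ.η _ _

theorem cont_sc' {P : Type} [TopologicalSpace P] [LocallyCompactSpace P] {s : P → ℂˣ}
    (hs : Continuous fun p => (s p : ℂ)) : Continuous fun p : P × Mod A l τ => sc (s p.1) p.2 :=
  continuous_of_fam2 fun T _ F t p ⟨r, a, b, V, c, f⟩ =>
    FamAt.continuousAt (F := fun q : P × T => osc (s q.1) (F q.2)) ⟨r, a, b, Prod.snd ⁻¹' V,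
      continuousAt_snd c, FamOn.smul (FamOn.comp f continuousOn_snd fun _ a => a)
        (hs.comp continuous_fst).continuousOn⟩

theorem cont_sc : Continuous fun p : ℂˣ × Mod A l τ => sc p.1 p.2 :=
  cont_sc' Units.continuous_val

/-- the flow `exp t` -/
def fl (t : ℝ) : Mod A l τ → Mod A l τ := sc (Units.mk0 (Complex.exp t) (Complex.exp_ne_zero t))

theorem cont_fl : Continuous fun p : ℝ × Mod A l τ => fl p.1 p.2 :=
  cont_sc' (s := fun t : ℝ => Units.mk0 (Complex.exp t) (Complex.exp_ne_zero t))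
    (Complex.continuous_exp.comp Complex.continuous_ofReal)

theorem fl_zero (m : Mod A l τ) : fl 0 m = m :=
  (congrArg (sc · m) (Units.ext (by simp))).trans (sc_one m)

theorem fl_add (s t : ℝ) (m : Mod A l τ) : fl (s + t) m = fl s (fl t m) :=
  (congrArg (sc · m) (Units.ext (by simp [Complex.exp_add]))).trans (sc_mul _ _ m)

/-! ### change of the frame, of the type, of the gauge -/

theorem Good.act (g : Good A l z) (d : h.det ≠ 0) : Good A l (z.act h) :=
  ⟨g.cc, g.det, g.hol, g.tr, g.law, fun i a => by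
    rw [Dat.act, Matrix.det_mul]; exact mul_ne_zero (g.fr i a) d,
    fun i j a b => (congrArg (· * h) (g.frc i j a b)).trans (mul_assoc _ _ _), fun i a => by
      simpa only [Dat.act, Matrix.mul_inv_rev, mul_assoc, mul_nonsing_inv_cancel_left _ _ d.isUnit]
        using g.pole i a⟩

theorem stab_act : Stab A l (z.act h) ↔ Stab A l z := Iff.rfl

theorem isoBy_act (z : Dat C A.N n) (h : Mn n) : IsoBy A (z.act h) z (fun _ _ => 1) h :=
  have f := hom_one (A := A) z
  ⟨⟨rfl, rfl, f.hol, f.law, f.con⟩, fun _ _ _ => by simp, fun _ _ => one_mul _⟩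

theorem FamOn.act {T : Type} [TopologicalSpace T] {F : T → Dat C A.N n} {V : Set T} {c : T → Mn n}
    (f : FamOn A l F V) (hc : ContinuousOn c V) (d : ∀ t ∈ V, (c t).det ≠ 0) :
    FamOn A l (fun t => (F t).act (c t)) V :=
  ⟨fun t a => Good.act (f.good t a) (d t a), f.lam, f.x,
    (ContinuousOn.mul (fun t a => (an_inv (𝕜 := ℂ) analyticAt_id (d t a)).continuousAt.comp_continuousWithinAt
      (hc t a)) f.R).mul hc, f.g, f.a, fun i => (f.σ i).mul (hc.mono fun _ a => a.1)⟩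

/-- change of the type -/
def ty {τ' : Ty n} (hH : τ.H ≤ τ'.H) (hq : τ.q ≤ τ'.q) : Mod A l τ → Mod A l τ' :=
  Quot.map (fun y => ⟨y.1, y.2.1, hq y.2.2⟩)
    fun _ _ ⟨r, a, b, φ, h, c, f⟩ => ⟨r, a, b, φ, h, hH c, f⟩

theorem cont_ty {τ' : Ty n} (hH : τ.H ≤ τ'.H) (hq : τ.q ≤ τ'.q) :
    Continuous (ty (A := A) (l := l) hH hq) :=
  continuous_of_fam fun _ _ F _ f =>
    FamAt.continuousAt (F := fun s => ⟨(F s).1, (F s).2.1, hq (F s).2.2⟩) f

end Vale.Agent.P275MB
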