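import Vale.Agent.P275MB.Gau
import Mathlib.Topology.ContinuousMap.SecondCountableSpace

/-!
P275 (helper16): the moduli spaces are Hausdorff, locally compact and second countable.
-/

set_option linter.all false

open scoped Topology Matrix.Norms.Operator ContDiff ComplexOrder
open Set Filter Metric Matrix TopologicalSpace
open Vale.Agent.P281Z.Hm Vale.Agent.P275GC Vale.Agent.P275GC.At Vale.Agent.P275MO
open Vale.Agent.P275NA (Fm Cy Mn Mr)

noncomputable section

namespace Vale.Agent.P275MB

variable {C : Type} [TopologicalSpace C] [T2Space C] {n : ℕ} {A : At C} {l : Cy A ℂ} {τ : Ty n}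

/-- the object of a chart -/
def cob (K : Chart A l τ) (m : Mod A l τ) (h : m ∈ K.e.source) : Ob A l τ :=
  ⟨K.F (K.e m), K.ob _ (K.e.map_source h)⟩

theorem cob_pt (K : Chart A l τ) {m : Mod A l τ} (h : m ∈ K.e.source) : (cob K m h).pt = m :=
  (K.symm _ (K.e.map_source h)).symm.trans (K.e.left_inv h)

/-- the universal family over the source of a chart -/
theorem famOn_chart (K : Chart A l τ) :
    FamOn (A.res K.r K.h1 K.h2) l (fun m => K.F (K.e m)) K.e.source :=
  FamOn.comp K.fam.toFamOn K.e.continuousOn K.e.mapsTo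

theorem t2_mod [ConnectedSpace C] (hn : 0 < n) (k : ∀ y : Mod A l τ, ∃ K : Chart A l τ, y ∈ K.e.source) :
    T2Space (Mod A l τ) := t2_iff_ultrafilter.2 fun {y y'} U a a' => by
  obtain ⟨K, b⟩ := k y
  obtain ⟨K', b'⟩ := k y'
  have d := lt_min K.h1 K'.h1
  have f := FamOn.comp (FamOn.mono (famOn_chart K) d (min_le_left _ _))
    (V' := K.e.source ×ˢ K'.e.source) continuousOn_fst fun _ a => a.1
  have f' := FamOn.comp (FamOn.mono (famOn_chart K') d (min_le_right _ _))
    (V' := K.e.source ×ˢ K'.e.source) continuousOn_snd fun _ a => a.2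
  have g := fun (m m' : Mod A l τ) a b => f.good (m, m') ⟨a, b⟩
  have g' := fun (m m' : Mod A l τ) a b => f'.good (m, m') ⟨a, b⟩
  let U' : Ultrafilter ↥(K.e.source ∩ K'.e.source) := U.comap Subtype.val_injective (by
    rw [Subtype.range_coe]
    exact inter_mem (a (K.e.open_source.mem_nhds b)) (a' (K'.e.open_source.mem_nhds b')))
  have t : Tendsto (fun j : ↥(K.e.source ∩ K'.e.source) => (j.1, j.1)) U'
      (𝓝[K.e.source ×ˢ K'.e.source] (y, y')) := tendsto_nhdsWithin_iff.2
    ⟨(tendsto_comap.mono_right a).prodMk_nhds (tendsto_comap.mono_right a'),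
      Eventually.of_forall fun j => j.2⟩
  choose φ h e using fun j : ↥(K.e.source ∩ K'.e.source) => (pt_eq_iff' (y := cob K j j.2.1)
    (y' := cob K' j j.2.2) (g _ _ j.2.1 j.2.2) (g' _ _ j.2.1 j.2.2)).1
      ((cob_pt K _).trans (cob_pt K' _).symm)
  obtain ⟨c, ψ, h', -, p, q, -⟩ := limi hn f f' (t := (y, y')) (t' := (y, y')) ⟨b, b'⟩ ⟨b, b'⟩ t t
    (IsOb.stab (cob K y b).2 (g _ _ b b')) (IsOb.stab (cob K' y' b').2 (g' _ _ b b')) e
  exact (cob_pt K b).symm.trans (((pt_eq_iff' (y := cob K y b) (y' := cob K' y' b') (g _ _ b b')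
    (g' _ _ b b')).2 ⟨ψ, h', p, q⟩).trans (cob_pt K' b'))

theorem wlc_mod (k : ∀ y : Mod A l τ, ∃ K : Chart A l τ, y ∈ K.e.source) :
    WeaklyLocallyCompactSpace (Mod A l τ) := ⟨fun y => by
  obtain ⟨K, b⟩ := k y
  obtain ⟨Q, c, d, e⟩ := exists_compact_subset K.e.open_target (K.e.map_source b)
  refine ⟨_, c.image_of_continuousOn (K.e.continuousOn_symm.mono e), ?_⟩
  simpa only [K.e.left_inv b] using K.e.symm.image_mem_nhds (K.e.map_source b)
    (mem_interior_iff_mem_nhds.1 d)⟩

theorem sc_curve (A : At C) : SecondCountableTopology C :=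
  haveI : ∀ i, SecondCountableTopology (A.e i).source := fun i =>
    (A.e i).toHomeomorphSourceTarget.secondCountableTopology
  secondCountableTopology_of_countable_cover (fun i => (A.e i).open_source)
    (eq_univ_of_forall fun x => mem_iUnion.2 ((A.cov x).imp fun _ a => a.1))

/-- the objects on `A` whose pole lies in the charts of `I` -/
def Tf (A : At C) (l : Cy A ℂ) (n : ℕ) (I : Set (Fin A.N)) : Type :=
  {z : Dat C A.N n // Good A l z ∧ ∀ i, z.x ∈ (A.e i).source ↔ i ∈ I}

open Classical in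
/-- the holomorphic matrix of the connection -/
def bm (A : At C) (I : Set (Fin A.N)) (z : Dat C A.N n) (i : Fin A.N) : ℂ → Mn n :=
  if i ∈ I then fill A z i else z.a i

theorem ct_bm {I : Set (Fin A.N)} (z : Tf A l n I) (i : Fin A.N) :
    ContinuousOn (bm A I z.1 i) (ball 0 A.R) := by
  unfold bm
  split_ifs with h
  · exact (Good.fill z.2.1 ((z.2.2 i).2 h)).continuousOn
  · exact (z.2.1.hol i).continuousOn.mono fun w a => off_of_not (mt (z.2.2 i).1 h) a

/-- the coordinates of an object -/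
def crd {I : Set (Fin A.N)} (z : Tf A l n I) : ℂ × C × Mn n × (Fin A.N → Mn n) ×
    (∀ i j, C(A.O i j, Mn n)) × (Fin A.N → C(ball (0 : ℂ) A.R, Mn n)) :=
  (z.1.lam, z.1.x, z.1.R, z.1.σ, fun i j => ⟨_, (z.2.1.cc.hol i j).continuousOn.restrict⟩,
    fun i => ⟨_, (ct_bm z i).restrict⟩)

instance topTf (I : Set (Fin A.N)) : TopologicalSpace (Tf A l n I) := induced crd inferInstance

theorem sc_Tf (I : Set (Fin A.N)) : SecondCountableTopology (Tf A l n I) := by
  haveI := sc_curve A
  haveI : ∀ i j, LocallyCompactSpace (A.O i j) := fun i j => (O_open i j).locallyCompactSpace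
  haveI : LocallyCompactSpace (ball (0 : ℂ) A.R) := isOpen_ball.locallyCompactSpace
  haveI : SecondCountableTopology (Mn n) := inferInstanceAs (SecondCountableTopology (Fin n → Fin n → ℂ))
  exact secondCountableTopology_induced _ _ crd

theorem co_eval {T X : Type} [TopologicalSpace T] [TopologicalSpace X] {O : Set ℂ} (hO : IsOpen O)
    {u : T → ℂ → X} {v : T → C(O, X)} (hv : Continuous v) (e : ∀ t (w : O), v t w = u t w) :
    ContinuousOn (fun p : T × ℂ => u p.1 p.2) (univ ×ˢ O) := by
  haveI := hO.locallyCompactSpace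
  rw [continuousOn_iff_continuous_restrict]
  exact ((hv.comp (continuous_fst.comp continuous_subtype_val)).eval
    ((continuous_snd.comp continuous_subtype_val).subtype_mk fun p => p.2.2)).congr fun p => e _ _

/-- the tautological family -/
theorem famOn_Tf (I : Set (Fin A.N)) : FamOn A l (fun z : Tf A l n I => z.1) univ := by
  have c : Continuous (crd : Tf A l n I → _) := continuous_induced_dom
  have x : Continuous fun z : Tf A l n I => z.1.x := c.snd.fst
  refine ⟨fun z _ => z.2.1, c.fst.continuousOn, x.continuousOn, c.snd.snd.fst.continuousOn,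
    fun i j => co_eval (O_open i j) ((continuous_apply j).comp ((continuous_apply i).comp
      c.snd.snd.snd.snd.fst)) fun _ _ => rfl, fun i => ?_,
    fun i => ((continuous_apply i).comp c.snd.snd.snd.fst).continuousOn⟩
  have b := (co_eval (u := fun z : Tf A l n I => bm A I z.1 i) isOpen_ball
    ((continuous_apply i).comp c.snd.snd.snd.snd.snd) fun _ _ => rfl).mono
    (t := {p : Tf A l n I × ℂ | p.1 ∈ univ ∧ p.2 ∈ off A p.1.1.x i}) fun p a => ⟨trivial, a.2.1⟩
  by_cases h : i ∈ I
  · have p : Continuous fun z : Tf A l n I => A.e i z.1.x :=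
      (A.e i).continuousOn.comp_continuous x fun z => (z.2.2 i).2 h
    exact (((continuous_snd.sub (p.comp continuous_fst)).continuousOn.inv₀ fun q a =>
      sub_ne_zero.2 ((off_iff ((q.1.2.2 i).2 h)).1 a.2).2).smul b).congr fun q a => by
        show _ = (_ : ℂ) • bm A I q.1.1 i q.2
        rw [bm, if_pos h]
        exact a_eq_fill ((q.1.2.2 i).2 h) a.2
  · simpa only [bm, if_neg h] using b

theorem lindelof_mod : LindelofSpace (Mod A l τ) := by
  let r : ℕ → ℝ := fun k => min A.R (1 + 1 / ((k : ℝ) + 1))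
  have r1 : ∀ k, 1 < r k := fun k => lt_min A.hR (lt_add_of_pos_right _ Nat.one_div_pos_of_nat)
  have r2 : ∀ k, r k ≤ A.R := fun k => min_le_left _ _
  let S : ∀ p : ℕ × Set (Fin A.N), Set (Tf (A.res (r p.1) (r1 _) (r2 _)) l n p.2) := fun p =>
    {z | IsOb A l τ.q z.1}
  let f : ∀ p, S p → Mod A l τ := fun p z => Ob.pt ⟨z.1.1, z.2⟩
  have c : ∀ p, IsLindelof (range (f p)) := fun p => by
    letI := topTf (A := A.res (r p.1) (r1 _) (r2 _)) (l := l) (n := n) p.2
    haveI := sc_Tf (A := A.res (r p.1) (r1 _) (r2 _)) (l := l) (n := n) p.2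
    exact isLindelof_range (continuous_iff_continuousAt.2 fun z => FamAt.continuousAt (A := A) (τ := τ)
      (F := fun z : S p => ⟨z.1.1, z.2⟩) ⟨_, r1 p.1, r2 _, univ, univ_mem,
        FamOn.comp (famOn_Tf (A := A.res (r p.1) (r1 _) (r2 _)) p.2)
        continuous_subtype_val.continuousOn (mapsTo_univ _ _)⟩)
  refine ⟨(eq_univ_of_forall fun m => ?_ : ⋃ p, range (f p) = univ) ▸ isLindelof_iUnion c⟩
  obtain ⟨y, rfl⟩ := pt_surj m
  obtain ⟨ρ, a, b, g⟩ := Ob.ex y
  obtain ⟨k, hk⟩ := exists_nat_one_div_lt (sub_pos.2 a)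
  exact mem_iUnion.2 ⟨(k, {i | y.1.x ∈ ((A.res (r k) (r1 _) (r2 _)).e i).source}),
    ⟨⟨y.1, Good.mono g (r1 k) ((min_le_right _ _).trans (by linarith)), fun _ => Iff.rfl⟩, y.2⟩, rfl⟩

theorem sc_mod (k : ∀ y : Mod A l τ, ∃ K : Chart A l τ, y ∈ K.e.source) :
    SecondCountableTopology (Mod A l τ) := by
  choose K hK using k
  obtain ⟨s, a, b⟩ := (lindelof_mod (A := A) (l := l) (τ := τ)).isLindelof_univ.elim_countable_subcover
    (fun y => (K y).e.source) (fun y => (K y).e.open_source) fun y _ => mem_iUnion.2 ⟨y, hK y⟩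
  haveI := a.to_subtype
  haveI : ∀ y : s, SecondCountableTopology (K y).e.source := fun y =>
    (K y).e.toHomeomorphSourceTarget.secondCountableTopology
  exact secondCountableTopology_of_countable_cover (U := fun y : s => (K y).e.source)
    (fun y => (K y).e.open_source) ((biUnion_eq_iUnion s fun y _ => (K y).e.source).symm.trans (univ_subset_iff.1 b))

theorem nice [ConnectedSpace C] (hn : 0 < n) (k : KUR n A l) : NICE n A l := fun τ =>
  haveI := t2_mod hn (k τ)
  haveI := wlc_mod (k τ)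
  ⟨inferInstance, inferInstance, sc_mod (k τ)⟩

omit [T2Space C] in
theorem nice' {d : ℤ} (s : Std A l n d) (k : KUR n A l) : NICE n A l :=
  haveI := s.t2
  haveI := s.conn
  nice (lt_of_lt_of_le two_pos s.two) k

end Vale.Agent.P275MB
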