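import Vale.Agent.P275MB.Iso
import Vale.Agent.P275KR.Dg
import Vale.Agent.P275KR.Lim
import Vale.Agent.P275GC.Deg
import Vale.Agent.P275HK.Alg2

/-!
P275 (helper16): maps of stable objects, limits of maps, continuous isomorphisms.
-/

set_option linter.all false

open scoped Topology Matrix.Norms.Operator ContDiff ComplexOrder
open Set Filter Metric Matrix
open Vale.Agent.P281Z.Hm Vale.Agent.P275GC Vale.Agent.P275GC.At Vale.Agent.P275MO
open Vale.Agent.P275NA (Fm Cy Mn Mr FrAt degS cvS)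
open Vale.Agent.P275KR (Sp Sb Mor)

noncomputable section

namespace Vale.Agent.P275MB

variable {C : Type} [TopologicalSpace C] [T2Space C] {n : ℕ} {A : At C} {l : Cy A ℂ}
  {i j : Fin A.N} {w : ℂ} {z z' : Dat C A.N n} {φ : Fm A (Mn n)} {H : Subalgebra ℂ (Mn n)}

theorem Hom.mor (f : Hom A z z' φ) : Mor z.g z'.g (fun _ _ _ => 1) φ :=
  ⟨f.hol, fun i j w a => by rw [one_smul, f.law i j w a], fun _ _ _ _ => one_ne_zero⟩

theorem Good.an (g : Good A l z) (hw : w ∈ off A z.x i) : AnalyticAt ℂ (z.a i) w :=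
  (g.hol i).analyticAt ((off_open _ i).mem_nhds hw)

theorem Good.degM (g : Good A l z) (hl : A.Cc l) : A.degM z.g = A.deg l :=
  deg_congr g.cc.det hl g.det

theorem Good.cc_l (g : Good A l z) : A.Cc l :=
  have d := g.cc.det
  ⟨fun i j => (d.hol i j).congr fun w a => (g.det i j w a).symm,
    fun i w a => (g.det i i w (O_self a)).symm.trans (d.one i w a), fun i j k w a b => by
      rw [← g.det i k w b, ← g.det i j w a, ← g.det j k _ (tr_O a b)]; exact d.mul i j k w a b⟩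

section simp

variable [ConnectedSpace C]

/-- invariance at generic points is enough -/
theorem invC_of (g : Good A l z) (V : Sb g.cc) (h : ∀ i, ∀ w ∈ off A z.x i, ∀ᶠ y in 𝓝[≠] w,
    ∀ s : ℂ → Fin n → ℂ, AnalyticAt ℂ s y → (∀ᶠ x in 𝓝 y, s x ∈ V.S i x) →
      z.lam • deriv s y + z.a i y *ᵥ s y ∈ V.S i y) : InvC A z V.S := fun i w hw s hs m => by
  refine V.mem (u := fun y => z.lam • deriv s y + z.a i y *ᵥ s y) hw.1
    ((hs.deriv.continuousAt.const_smul z.lam).add (an_mulVec (Good.an g hw) hs).continuousAt) ?_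
  filter_upwards [h i w hw, nhdsWithin_le_nhds hs.eventually_analyticAt,
    nhdsWithin_le_nhds m.eventually_nhds] with y a b c using a s b c

theorem invC_ker (g : Good A l z) (g' : Good A l z') (f : Hom A z z' φ) :
    InvC A z (Sb.ker g.cc g'.cc (Hom.mor f)).S := invC_of g _ fun i w hw => by
  have o := (off_open z.x i).mem_nhds hw
  filter_upwards [eventually_nhdsNE_eventually_nhds_iff.2 (Sb.comap_ev (hg := g.cc) (Hom.mor f)
    (⊥ : Sb g'.cc) i hw.1), nhdsWithin_le_nhds (eventually_mem_nhds_iff.2 o)] with y a b s hs m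
  have hy : y ∈ off A z.x i := mem_of_mem_nhds b
  have e : ∀ᶠ x in 𝓝 y, φ i x *ᵥ s x = 0 := by
    filter_upwards [a, b, m] with x p q t
    rwa [p, Sb.bot_S q.1] at t
  have d := (deriv_mulVec (f.hol.an hy.1 i) hs).symm.trans
    ((EventuallyEq.deriv_eq e).trans (deriv_const y 0))
  have t := congrArg (· *ᵥ s y) (f.con i y hy)
  rw [a.self_of_nhds, Sb.bot_S hy.1]
  show φ i y *ᵥ _ = 0
  simp only [mulVec_add, add_mulVec, mulVec_smul, smul_mulVec, ← mulVec_mulVec, e.self_of_nhds,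
    mulVec_zero] at t ⊢
  linear_combination (norm := module) z.lam • d - t

theorem invC_im (g : Good A l z) (g' : Good A l z') (f : Hom A z z' φ) :
    InvC A z' (Sb.im g.cc g'.cc (Hom.mor f)).S := invC_of g' _ fun i w hw => by
  have o := (off_open z'.x i).mem_nhds hw
  filter_upwards [eventually_nhdsNE_eventually_nhds_iff.2 (Sb.map_ev (hg' := g'.cc) (Hom.mor f)
    (⊤ : Sb g.cc) i hw.1), nhdsWithin_le_nhds (eventually_mem_nhds_iff.2 o),
    P275KR.exists_ginv (f.hol.an hw.1 i)] with y a b ⟨Y, hY, c⟩ s hs m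
  have hy : y ∈ off A z'.x i := mem_of_mem_nhds b
  have e : ∀ᶠ x in 𝓝 y, s x = φ i x *ᵥ (Y x *ᵥ s x) := by
    filter_upwards [a, c, m] with x p q t
    obtain ⟨v, -, u⟩ := p ▸ t
    rw [← u, mulVecLin_apply, mulVec_mulVec, mulVec_mulVec, q]
  have t := congrArg (· *ᵥ (Y y *ᵥ s y)) (f.con i y (f.x ▸ hy))
  rw [a.self_of_nhds, Sb.top_S hy.1, EventuallyEq.deriv_eq e,
    deriv_mulVec (f.hol.an hy.1 i) (an_mulVec hY hs), f.lam]
  refine ⟨z.lam • deriv (fun x => Y x *ᵥ s x) y + z.a i y *ᵥ (Y y *ᵥ s y), trivial, ?_⟩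
  simp only [mulVecLin_apply, mulVec_add, add_mulVec, mulVec_smul, smul_mulVec, smul_add,
    ← mulVec_mulVec, ← e.self_of_nhds] at t ⊢
  linear_combination (norm := module) -t

theorem Hom.det_ne (g : Good A l z) (g' : Good A l z') (s : Stab A l z) (s' : Stab A l z')
    (f : Hom A z z' φ) (h0 : ∃ i, ∃ w ∈ ball (0 : ℂ) A.R, φ i w ≠ 0) :
    ∀ i, ∀ w ∈ ball (0 : ℂ) A.R, (φ i w).det ≠ 0 := fun i w hw => by
  have hl := Good.cc_l g
  refine Sb.det_ne_of_stab (hg := g.cc) (hg' := g'.cc) (Hom.mor f) (fun a b => ?_) (fun a b => ?_)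
    (by rw [Good.degM g hl, Good.degM g' hl]) (fun a => ?_) i hw
  · rw [Good.degM g hl]; exact s _ _ a b (Sb.sub _) (invC_ker g g' f)
  · rw [Good.degM g' hl]; exact (s' _ _ a b (Sb.sub _) (invC_im g g' f)).le
  · obtain ⟨i, w, b, c⟩ := h0
    exact c (a i w b)

theorem Hom.scalar (g : Good A l z) (s : Stab A l z) (f : Hom A z z φ) :
    ∃ c : ℂ, ∀ i, ∀ w ∈ ball (0 : ℂ) A.R, φ i w = c • 1 := by
  rcases isEmpty_or_nonempty (Fin n) with e | e
  · exact ⟨0, fun _ _ _ => Subsingleton.elim _ _⟩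
  obtain ⟨i, w, hw⟩ := Sb.ex_pt A
  obtain ⟨c, hc⟩ := P275HK.ex_eig (φ i w)
  refine ⟨c, fun j y hy => sub_eq_zero.1 (by_contra fun a => ?_)⟩
  exact Hom.det_ne g g s s (Hom.sub f (hom_smul_one z c)) ⟨j, y, hy, a⟩ i w hw hc

theorem simp (A : At C) (l : Cy A ℂ) (n : ℕ) : SIMP n A l := fun z z' φ g g' s s' f =>
  ⟨(em _).imp_right fun a => Hom.det_ne g g' s s' f (by simpa using a),
    fun e => Hom.scalar g s (e ▸ f)⟩

/-- two maps from a stable object differ by a scalar if one is invertible -/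
theorem Hom.eq_smul {ψ : Fm A (Mn n)} (g : Good A l z) (s : Stab A l z) (f : Hom A z z' φ)
    (d : ∀ i, ∀ w ∈ ball (0 : ℂ) A.R, (φ i w).det ≠ 0) (f' : Hom A z z' ψ) :
    ∃ c : ℂ, ∀ i, ∀ w ∈ ball (0 : ℂ) A.R, ψ i w = c • φ i w := by
  obtain ⟨c, hc⟩ := Hom.scalar g s (Hom.comp f' (Hom.inv f d))
  exact ⟨c, fun i w hw => by
    rw [← mul_nonsing_inv_cancel_left _ (ψ i w) (d i w hw).isUnit, hc i w hw, mul_smul_comm,
      mul_one]⟩

end simp

section lim

variable {T J : Type} [TopologicalSpace T] {F F' : T → Dat C A.N n} {V : Set T} {t t' : T}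
  {U : Filter J} {s s' : J → T}

theorem FamOn.tg (f : FamOn A l F V) (ht : t ∈ V) (hs : Tendsto s U (𝓝[V] t)) {u : J → ℂ}
    (hw : w ∈ A.O i j) (hu : Tendsto u U (𝓝 w)) :
    Tendsto (fun k => (F (s k)).g i j (u k)) U (𝓝 ((F t).g i j w)) :=
  (f.g i j (t, w) ⟨ht, hw⟩).tendsto.comp (f := fun k => (s k, u k)) (by
    rw [nhdsWithin_prod_eq, (O_open i j).nhdsWithin_eq hw]; exact hs.prodMk hu)

theorem FamOn.tx (f : FamOn A l F V) (ht : t ∈ V) (hs : Tendsto s U (𝓝[V] t)) :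
    Tendsto (fun k => (F (s k)).x) U (𝓝 (F t).x) := (f.x t ht).tendsto.comp hs

theorem FamOn.ta (f : FamOn A l F V) (ht : t ∈ V) (hs : Tendsto s U (𝓝[V] t))
    (hw : w ∈ off A (F t).x i) : (∀ᶠ k in U, w ∈ off A (F (s k)).x i) ∧
      Tendsto (fun k => (F (s k)).a i w) U (𝓝 ((F t).a i w)) := by
  have a : ∀ᶠ k in U, w ∈ off A (F (s k)).x i :=
    ((FamOn.tx f ht hs).eventually_ne hw.2.symm).mono fun k a => ⟨hw.1, a.symm⟩
  obtain ⟨b, c⟩ := tendsto_nhdsWithin_iff.1 hs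
  exact ⟨a, (f.a i (t, w) ⟨ht, hw⟩).tendsto.comp (f := fun k => (s k, w))
    (tendsto_nhdsWithin_iff.2 ⟨b.prodMk_nhds tendsto_const_nhds, c.and a⟩)⟩

theorem FamOn.tσ (f : FamOn A l F V) (ht : t ∈ V) (hs : Tendsto s U (𝓝[V] t))
    (hx : (F t).x ∈ (A.e i).source) : (∀ᶠ k in U, (F (s k)).x ∈ (A.e i).source) ∧
      Tendsto (fun k => (F (s k)).σ i) U (𝓝 ((F t).σ i)) ∧
      Tendsto (fun k => A.e i (F (s k)).x) U (𝓝 (A.e i (F t).x)) := by
  have a := (FamOn.tx f ht hs).eventually ((A.e i).open_source.mem_nhds hx)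
  obtain ⟨b, c⟩ := tendsto_nhdsWithin_iff.1 hs
  exact ⟨a, (f.σ i t ⟨ht, hx⟩).tendsto.comp (tendsto_nhdsWithin_iff.2 ⟨b, c.and a⟩),
    ((A.e i).continuousAt hx).tendsto.comp (FamOn.tx f ht hs)⟩

theorem ex_max (g : A.Cc z.g) (f : Hom A z z' φ) (h0 : ∃ i, ∃ w ∈ ball (0 : ℂ) A.R, φ i w ≠ 0) :
    ∃ i, ∃ w ∈ closedBall (0 : ℂ) 1, φ i w ≠ 0 ∧
      ∀ j, ∀ y ∈ closedBall (0 : ℂ) 1, ‖φ j y‖ ≤ ‖φ i w‖ := by
  obtain ⟨i, w, hw, a⟩ := h0
  choose u hu hm using fun j => (isCompact_closedBall (0 : ℂ) 1).exists_isMaxOn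
    (nonempty_closedBall.2 zero_le_one) ((f.hol j).continuousOn.mono A.unit_sub).norm
  haveI : Nonempty (Fin A.N) := ⟨i⟩
  obtain ⟨k, hk⟩ := Finite.exists_max fun j => ‖φ j (u j)‖
  refine ⟨k, u k, hu k, fun e => a ?_, fun j y b => (hm j b).trans (hk j)⟩
  obtain ⟨j, b, c⟩ := ex_unit hw i
  have : φ j (A.tr i j w) = 0 := norm_le_zero_iff.1
    (((hm j (mem_closedBall_zero_iff.2 c.le)).trans (hk j)).trans_eq (by rw [e, norm_zero]))
  rw [Hom.tr f g i j w b, this, hT, mul_zero, zero_mul]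

theorem limh (A : At C) (l : Cy A ℂ) (n : ℕ) : LIMH n A l := by
  intro T _ F F' V t t' J U s s' φ f f' ht ht' hs hs' h
  have hV := (tendsto_nhdsWithin_iff.1 hs).2
  have ex : ∀ k, ∃ i, ∃ w ∈ closedBall (0 : ℂ) 1, φ k i w ≠ 0 ∧ (s k ∈ V →
      ∀ j, ∀ y ∈ closedBall (0 : ℂ) 1, ‖φ k j y‖ ≤ ‖φ k i w‖) ∨ s k ∉ V := fun k => by
    by_cases a : s k ∈ V
    · obtain ⟨i, w, b, c, d⟩ := ex_max (f.good _ a).cc (h k).1 (h k).2
      exact ⟨i, w, b, Or.inl ⟨c, fun _ => d⟩⟩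
    · obtain ⟨i, -⟩ := (h k).2
      exact ⟨i, 0, by simp, Or.inr a⟩
  choose m u hu hm using ex
  classical
  let c : J → ℂ := fun k => if φ k (m k) (u k) = 0 then 1 else (‖φ k (m k) (u k)‖ : ℂ)⁻¹
  have c0 : ∀ k, c k ≠ 0 := fun k => by
    simp only [c]
    split_ifs with a
    · exact one_ne_zero
    · exact inv_ne_zero (mod_cast norm_ne_zero_iff.2 a)
  have c1 : ∀ᶠ k in U, ‖c k • φ k (m k) (u k)‖ = 1 ∧
      ∀ j, ∀ y ∈ closedBall (0 : ℂ) 1, ‖c k • φ k j y‖ ≤ 1 := hV.mono fun k a => by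
    obtain ⟨b, d⟩ := (hm k).resolve_right (not_not.2 a)
    have p := norm_pos_iff.2 b
    simp only [c, if_neg b, norm_smul, norm_inv, Complex.norm_real, norm_norm]
    exact ⟨inv_mul_cancel₀ p.ne', fun j y e => (inv_mul_le_one₀ p).2 (d a j y e)⟩
  have g : ∀ k, Hom A (F (s k)) (F' (s' k)) fun i w => c k • φ k i w := fun k =>
    Hom.smul (h k).1 _
  choose ψ p q using fun i => P275KR.montel U (f := fun k w => c k • φ k i w)
    (U := ball (0 : ℂ) A.R) isOpen_ball fun x hx => by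
      obtain ⟨j, a, b⟩ := ex_unit hx i
      have d := ((FamOn.tg f' ht' (hs'.comp tendsto_fst) a (tendsto_snd (f := (U : Filter J)))).norm.mul
        (FamOn.tg f ht (hs.comp tendsto_fst) (tr_mem a)
          ((an_tr a).continuousAt.tendsto.comp tendsto_snd)).norm).eventually
        (gt_mem_nhds (lt_add_one _))
      obtain ⟨pa, e1, pb, e2, e⟩ := eventually_prod_iff.1 d
      obtain ⟨r, r0, e3⟩ := Metric.eventually_nhds_iff_ball.1 (e2.and (Eventually.and (O_nhds a)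
        ((an_tr a).continuousAt.norm.eventually (gt_mem_nhds b))))
      refine ⟨r, r0, _, (e1.and (hV.and c1)).mono fun k o => ⟨((g k).hol i).mono fun y hy =>
        (e3 y hy).2.1.1, fun y hy => le_trans ?_ (e o.1 (e3 y hy).1).le⟩⟩
      rw [Hom.tr (g k) (f.good _ o.2.1).cc i j y (e3 y hy).2.1]
      refine (norm_mul_le _ _).trans (mul_le_mul_of_nonneg_right ((norm_mul_le _ _).trans
        (mul_le_of_le_one_right (norm_nonneg _) (o.2.2.2 j _ ?_))) (norm_nonneg _))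
      exact mem_closedBall_zero_iff.2 (e3 y hy).2.2.le
  refine ⟨c, ψ, c0, ⟨tendsto_nhds_unique ((f'.lam t' ht').tendsto.comp hs')
    (((f.lam t ht).tendsto.comp hs).congr fun k => (g k).lam.symm),
    tendsto_nhds_unique (FamOn.tx f' ht' hs') ((FamOn.tx f ht hs).congr fun k => (g k).x.symm), q,
    fun i j w a => tendsto_nhds_unique (((p i).tendsto_at a.1).mul
      (FamOn.tg f ht hs a tendsto_const_nhds)) (((FamOn.tg f' ht' hs' a tendsto_const_nhds).mul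
        ((p j).tendsto_at (tr_ball a))).congr fun k => ((g k).law i j w a).symm),
    fun i w a => ?_⟩, ?_, p⟩
  · have e : (F' t').x = (F t).x :=
      tendsto_nhds_unique (FamOn.tx f' ht' hs') ((FamOn.tx f ht hs).congr fun k => (g k).x.symm)
    obtain ⟨b, d⟩ := FamOn.ta f ht hs a
    have o : Tendsto (fun k => deriv (fun w => c k • φ k i w) w) U (𝓝 (deriv (ψ i) w)) :=
      ((p i).deriv (Eventually.of_forall fun k => (g k).hol i) isOpen_ball).tendsto_at a.1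
    exact tendsto_nhds_unique_of_eventuallyEq ((((f.lam t ht).tendsto.comp hs).smul o).add
      ((FamOn.ta f' ht' hs' (e ▸ a)).2.mul ((p i).tendsto_at a.1)))
      (((p i).tendsto_at a.1).mul d) (b.mono fun k b => (g k).con i w b)
  · obtain ⟨i, a⟩ := Ultrafilter.eq_pure_of_finite (U.map m)
    have b : ∀ᶠ k in U, m k = i := by
      have : {i} ∈ U.map m := a ▸ Ultrafilter.mem_pure.2 rfl
      exact this
    obtain ⟨w, d, e⟩ := (isCompact_closedBall (0 : ℂ) 1).ultrafilter_le_nhds (U.map u)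
      (le_principal_iff.2 (Eventually.of_forall hu : ∀ᶠ k in (U : Filter J), _))
    have hw := A.unit_sub d
    have o := ((p i).tendsto_comp ((q i).continuousOn w hw) hw (tendsto_nhdsWithin_iff.2
      ⟨e, Eventually.of_forall fun k => A.unit_sub (hu k)⟩)).norm
    refine ⟨i, w, hw, norm_ne_zero_iff.1 ?_⟩
    rw [tendsto_nhds_unique_of_eventuallyEq o tendsto_const_nhds ((b.and c1).mono fun k a => by
      rw [← a.1]; exact a.2.1)]
    exact one_ne_zero

variable [ConnectedSpace C]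

/-- normalised limits of isomorphisms -/
theorem limi (hn : 0 < n) {U : Ultrafilter J} {φ : J → Fm A (Mn n)} {h : J → Mn n}
    (f : FamOn A l F V) (f' : FamOn A l F' V) (ht : t ∈ V) (ht' : t' ∈ V)
    (hs : Tendsto s U (𝓝[V] t)) (hs' : Tendsto s' U (𝓝[V] t')) (st : Stab A l (F t))
    (st' : Stab A l (F' t')) (hi : ∀ k, h k ∈ H ∧ IsoBy A (F (s k)) (F' (s' k)) (φ k) (h k)) :
    ∃ (c : J → ℂ) (ψ : Fm A (Mn n)) (h' : Mn n), (∀ k, c k ≠ 0) ∧ h' ∈ H ∧
      IsoBy A (F t) (F' t') ψ h' ∧ Tendsto (fun k => c k • h k) U (𝓝 h') ∧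
      ∀ i, TendstoLocallyUniformlyOn (fun k w => c k • φ k i w) (ψ i) U (ball 0 A.R) := by
  haveI : Nonempty (Fin n) := ⟨⟨0, hn⟩⟩
  obtain ⟨i0, w0, h0⟩ := Sb.ex_pt A
  obtain ⟨c, ψ, a, b, d, e⟩ := limh A l n T F F' V t t' J U s s' φ f f' ht ht' hs hs' fun k =>
    ⟨(hi k).2.toHom, i0, w0, h0, fun e => (hi k).2.det i0 w0 h0 (by rw [e, det_zero])⟩
  obtain ⟨i, hx, -⟩ := A.cov (F t).x
  obtain ⟨p1, p2, p3⟩ := FamOn.tσ f ht hs hx
  obtain ⟨-, q2, -⟩ := FamOn.tσ f' ht' hs' (b.x ▸ hx)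
  have o : Tendsto (fun k => c k • h k) U
      (𝓝 (((F' t').σ i)⁻¹ * ψ i (A.e i (F t).x) * (F t).σ i)) := by
    refine ((((an_inv (𝕜 := ℂ) analyticAt_id ((f'.good t' ht').fr i
      (b.x ▸ hx))).continuousAt.tendsto.comp q2).mul ((e i).tendsto_comp
        ((b.hol i).continuousOn _ (map_src hx)) (map_src hx) (tendsto_nhdsWithin_iff.2
          ⟨p3, p1.mono fun k a => map_src a⟩))).mul p2).congr' ?_
    filter_upwards [p1, (tendsto_nhdsWithin_iff.1 hs').2] with k u v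
    exact (IsoBy.h_eq (f'.good _ v) (IsoBy.smul (hi k).2 (a k)) u).symm
  exact ⟨c, ψ, _, a, H.toSubmodule.closed_of_finiteDimensional.mem_of_tendsto o
    (Eventually.of_forall fun k => H.smul_mem (hi k).1 _), Hom.isoBy (f.good t ht) (f'.good t' ht')
      b (Hom.det_ne (f.good t ht) (f'.good t' ht') st st' b d) hx, o, e⟩

theorem isoc (A : At C) (l : Cy A ℂ) (n : ℕ) : ISOC n A l := by
  intro H T _ F F' V t f f' ht h
  classical
  choose! φ k hk using fun s (a : s ∈ V) => (iso_iff (f.good s a) (f'.good s a)).1 (h s a).2.2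
  rcases Nat.eq_zero_or_pos n with rfl | hn
  · exact ⟨V, self_mem_nhdsWithin, φ, k, Subset.rfl, continuousOn_const.congr (g := k) (f := fun _ => 0)
      fun _ _ => Subsingleton.elim _ _, fun i => continuousOn_const.congr (f := fun _ => 0)
        fun _ _ => Subsingleton.elim _ _, hk⟩
  obtain ⟨i0, w0, h0⟩ := Sb.ex_pt A
  let e : T → ℂ := fun s => trace ((φ t i0 w0)⁻¹ * φ s i0 w0)
  have key : ∀ s0 ∈ V, e s0 ≠ 0 → ∀ (J : Type) (U : Ultrafilter J) (s : J → V),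
      Tendsto (fun j => (s j : T)) U (𝓝[V] s0) → (∀ᶠ j in U, e (s j) ≠ 0) ∧
        Tendsto (fun j => (e (s j))⁻¹ • k (s j)) U (𝓝 ((e s0)⁻¹ • k s0)) ∧
        ∀ i, ∀ w ∈ ball (0 : ℂ) A.R, ∀ u : J → ℂ, Tendsto u U (𝓝[ball 0 A.R] w) →
          Tendsto (fun j => (e (s j))⁻¹ • φ (s j) i (u j)) U (𝓝 ((e s0)⁻¹ • φ s0 i w)) := by
    intro s0 a e0 J U s hs
    obtain ⟨c, ψ, h', c0, -, b, d, p⟩ := limi hn f f' a a hs hs (h s0 a).1 (h s0 a).2.1
      fun j => hk _ (s j).2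
    obtain ⟨μ, hμ⟩ := Hom.eq_smul (f.good s0 a) (h s0 a).1 (hk s0 a).2.toHom (hk s0 a).2.det b.toHom
    have μ0 : μ ≠ 0 := fun o => b.det i0 w0 h0 (by
      haveI : Nonempty (Fin n) := ⟨⟨0, hn⟩⟩
      rw [hμ i0 w0 h0, o, zero_smul, det_zero])
    have q : Tendsto (fun j => c j * e (s j)) U (𝓝 (μ * e s0)) := by
      have := (an_trace (𝕜 := ℂ) analyticAt_id).continuousAt.tendsto.comp
        (((p i0).tendsto_at h0).const_mul (φ t i0 w0)⁻¹)
      simpa only [hμ i0 w0 h0, Function.comp_def, id, mul_smul_comm, trace_smul, smul_eq_mul]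
        using this
    have q' := q.inv₀ (mul_ne_zero μ0 e0)
    have y : ∀ {a b : ℂ} (X : Mn n), a ≠ 0 → (a * b)⁻¹ • a • X = b⁻¹ • X := fun X o => by
      rw [smul_smul, _root_.mul_inv_rev, inv_mul_cancel_right₀ o]
    obtain ⟨i1, hx, -⟩ := A.cov (F s0).x
    refine ⟨(q.eventually_ne (mul_ne_zero μ0 e0)).mono fun _ => right_ne_zero_of_mul, ?_,
      fun i w hw u hu => ?_⟩
    · have := q'.smul d
      rw [IsoBy.h_eq (f'.good s0 a) b hx, hμ i1 _ (map_src hx), mul_smul_comm, smul_mul_assoc,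
        ← IsoBy.h_eq (f'.good s0 a) (hk s0 a).2 hx, y _ μ0] at this
      exact this.congr fun j => y _ (c0 j)
    · have := q'.smul ((p i).tendsto_comp ((b.hol i).continuousOn w hw) hw hu)
      rw [hμ i w hw, y _ μ0] at this
      exact this.congr fun j => y _ (c0 j)
  have et : e t ≠ 0 := by
    simp only [e, nonsing_inv_mul _ ((hk t ht).2.det i0 w0 h0).isUnit, trace_one, Fintype.card_fin]
    exact mod_cast hn.ne'
  have cut : ∀ {J : Type} {U : Filter J} {s : J → T} {s0 : T} {W : Set T}, W ⊆ V → s0 ∈ V →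
      Tendsto s U (𝓝[W] s0) → ∃ s' : J → V, Tendsto (fun j => (s' j : T)) U (𝓝[V] s0) ∧
        ∀ᶠ j in U, (s' j : T) = s j := fun {J U s s0 W} a b c => by
    have o : ∀ᶠ j in U, ((if p : s j ∈ V then ⟨s j, p⟩ else ⟨s0, b⟩ : V) : T) = s j :=
      (tendsto_nhdsWithin_iff.1 c).2.mono fun j p => by rw [dif_pos (a p)]
    exact ⟨_, (c.mono_right (nhdsWithin_mono _ a)).congr' (EventuallyEq.symm o), o⟩
  refine ⟨{s | s ∈ V ∧ e s ≠ 0}, mem_iff_ultrafilter.2 fun U hU => ?_,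
    fun s i w => (e s)⁻¹ • φ s i w, fun s => (e s)⁻¹ • k s, fun _ a => a.1,
    fun s a => tendsto_iff_ultrafilter _ _ _ |>.2 fun U hU => ?_,
    fun i p a => tendsto_iff_ultrafilter _ _ _ |>.2 fun U hU => ?_,
    fun s a => ⟨H.smul_mem (hk s a.1).1 _, IsoBy.smul (hk s a.1).2 (inv_ne_zero a.2)⟩⟩
  · obtain ⟨s', b, c⟩ := cut (s := id) Subset.rfl ht hU
    filter_upwards [(key t ht et T U s' b).1, c] with j p q
    exact ⟨(show _ = j from q) ▸ (s' j).2, (show _ = j from q) ▸ p⟩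
  · obtain ⟨s', b, c⟩ := cut (s := id) (fun _ a => a.1) a.1 hU
    exact (key s a.1 a.2 T U s' b).2.1.congr' (c.mono fun j q => by simp only [q, id])
  · rw [nhdsWithin_prod_eq] at hU
    obtain ⟨s', b, c⟩ := cut (fun _ a => a.1) a.1.1 (tendsto_fst.mono_left hU)
    exact ((key p.1 a.1.1 a.1.2 _ U s' b).2.2 i p.2 a.2 Prod.snd (tendsto_snd.mono_left hU)).congr'
      (c.mono fun j q => by simp only [q])

end lim

end Vale.Agent.P275MB
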