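import Vale.Agent.P275MB.Lim
import Vale.Agent.P272.GEO.Joint
import Vale.Agent.P281.MF.Hol

/-!
P275 (helper16): the connection matrix at the pole, gauge transformations.
-/

set_option linter.all false

open scoped Topology Matrix.Norms.Operator ContDiff ComplexOrder
open Set Filter Metric Matrix
open Vale.Agent.P281Z.Hm Vale.Agent.P275GC Vale.Agent.P275GC.At Vale.Agent.P275MO
open Vale.Agent.P275NA (Fm Cy Mn Mr fc)

noncomputable section

namespace Vale.Agent.P275MB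

variable {C : Type} [TopologicalSpace C] {n : ℕ} {A : At C} {l : Cy A ℂ}
  {i j : Fin A.N} {w : ℂ} {z : Dat C A.N n} {Φ : Fm A (Mn n)} {g : Cy A (Mn n)}
  {T : Type} [TopologicalSpace T] {F : T → Dat C A.N n} {V : Set T}
  {E : Type} [NormedAddCommGroup E] [NormedSpace ℂ E] [FiniteDimensional ℂ E]
  {G : E → Dat C A.N n} {W : Set E}

theorem ca_inv {X : Mn n} (h : X.det ≠ 0) : ContinuousAt (fun Y : Mn n => Y⁻¹) X :=
  (an_inv (𝕜 := ℂ) analyticAt_id h).continuousAt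

theorem co_inv {P : Type} [TopologicalSpace P] {u : P → Mn n} {s : Set P} (hu : ContinuousOn u s)
    (h : ∀ p ∈ s, (u p).det ≠ 0) : ContinuousOn (fun p => (u p)⁻¹) s :=
  fun p a => (ca_inv (h p a)).comp_continuousWithinAt (hu p a)

theorem do_inv {P : Type} [NormedAddCommGroup P] [NormedSpace ℂ P] {u : P → Mn n} {s : Set P}
    (hu : DifferentiableOn ℂ u s) (h : ∀ p ∈ s, (u p).det ≠ 0) :
    DifferentiableOn ℂ (fun p => (u p)⁻¹) s := fun p a =>
  (an_inv (𝕜 := ℂ) analyticAt_id (h p a)).differentiableAt.comp_differentiableWithinAt p (hu p a)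

/-! ### the pole -/

theorem fill_off (hw : (A.e i).symm w ≠ z.x) : fill A z i w = (w - A.e i z.x) • z.a i w :=
  if_neg hw

theorem fill_at (hx : z.x ∈ (A.e i).source) :
    fill A z i (A.e i z.x) = z.σ i * z.R * (z.σ i)⁻¹ := if_pos ((A.e i).left_inv hx)

theorem off_iff {x : C} (hx : x ∈ (A.e i).source) :
    w ∈ off A x i ↔ w ∈ ball (0 : ℂ) A.R ∧ w ≠ A.e i x :=
  and_congr_right fun a => not_congr
    ⟨fun b => by rw [← b, rinv a], fun b => by rw [b, (A.e i).left_inv hx]⟩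

theorem off_of_not {x : C} (hx : x ∉ (A.e i).source) (hw : w ∈ ball (0 : ℂ) A.R) :
    w ∈ off A x i := ⟨hw, fun a => hx (a ▸ map_tgt hw)⟩

theorem a_eq_fill (hx : z.x ∈ (A.e i).source) (hw : w ∈ off A z.x i) :
    z.a i w = (w - A.e i z.x)⁻¹ • fill A z i w := by
  rw [fill_off hw.2, inv_smul_smul₀ (sub_ne_zero.2 ((off_iff hx).1 hw).2)]

theorem Good.fill (h : Good A l z) (hx : z.x ∈ (A.e i).source) :
    DifferentiableOn ℂ (fill A z i) (ball 0 A.R) := by
  refine (Complex.differentiableOn_compl_singleton_and_continuousAt_iff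
    (isOpen_ball.mem_nhds (map_src hx))).1 ⟨?_, continuousAt_iff_punctured_nhds.2 ?_⟩
  · exact (((differentiableOn_id.sub_const _).smul (h.hol i)).mono fun w a =>
      (off_iff hx).2 a).congr fun w a => fill_off ((off_iff hx).2 a).2
  · rw [fill_at hx]
    exact (h.pole i hx).congr' ((off_ev hx).mono fun w a => (fill_off a.2).symm)

theorem FamOn.p (f : FamOn A l F V) (i : Fin A.N) :
    ContinuousOn (fun t => A.e i (F t).x) {t | t ∈ V ∧ (F t).x ∈ (A.e i).source} :=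
  (A.e i).continuousOn.comp (f.x.mono fun _ a => a.1) fun _ a => a.2

theorem le_mem_nhds' {a b : ℝ} (h : a < b) : ∀ᶠ x in 𝓝 a, x ≤ b :=
  (gt_mem_nhds h).mono fun _ => le_of_lt

/-- joint continuity propagates from a circle to its centre -/
theorem cw_of_sphere {X : Type} [NormedAddCommGroup X] [NormedSpace ℂ X] {u : T → ℂ → X} {S : Set T}
    {t : T} {ρ : ℝ} (h0 : 0 < ρ) (ht : t ∈ S) (hd : ∀ s ∈ S, DiffContOnCl ℂ (u s) (ball w ρ))
    (hc : ∀ y ∈ sphere w ρ, ContinuousAt (u t) y ∧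
      ContinuousWithinAt (fun p : T × ℂ => u p.1 p.2) (S ×ˢ univ) (t, y)) :
    ContinuousWithinAt (fun p : T × ℂ => u p.1 p.2) (S ×ˢ univ) (t, w) := by
  refine Metric.tendsto_nhds.2 fun ε e0 => ?_
  have a := (isCompact_sphere w ρ).eventually_forall_of_forall_eventually (x₀ := t)
    (P := fun s y => s ∈ S → ‖u s y - u t y‖ ≤ ε / 2) fun y hy => by
      have := (((hc y hy).2.sub ((hc y hy).1.comp_continuousWithinAt (f := Prod.snd) (x := (t, y))
        continuousWithinAt_snd)).norm).eventually (le_mem_nhds' (b := ε / 2) (by simpa using e0))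
      exact (eventually_nhdsWithin_iff.1 this).mono fun p b c => b ⟨c, trivial⟩
  have b := Metric.tendsto_nhds.1 ((hd t ht).differentiableAt isOpen_ball
    (mem_ball_self h0)).continuousAt _ (half_pos e0)
  filter_upwards [self_mem_nhdsWithin, nhdsWithin_le_nhds ((continuousAt_fst (p := (t, w))).eventually a),
    nhdsWithin_le_nhds ((continuousAt_snd (p := (t, w))).eventually (b.and (ball_mem_nhds w h0)))]
    with p c d e
  have o := Complex.norm_le_of_forall_mem_frontier_norm_le isBounded_ball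
    ((hd _ c.1).sub (hd t ht)) (fun y hy => d y (frontier_ball w h0.ne' ▸ hy) c.1)
    (subset_closure e.2)
  calc _ ≤ _ := dist_triangle _ (u t p.2) _
    _ < ε / 2 + ε / 2 := add_lt_add_of_le_of_lt (by rw [dist_eq_norm]; exact o) e.1
    _ = ε := add_halves ε

variable [T2Space C]

theorem FamOn.fill (f : FamOn A l F V) (i : Fin A.N) :
    ContinuousOn (fun p : T × ℂ => fill A (F p.1) i p.2)
      ({t | t ∈ V ∧ (F t).x ∈ (A.e i).source} ×ˢ ball 0 A.R) := by
  rintro ⟨t, w⟩ ⟨ht, hw⟩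
  obtain ⟨δ, d0, d1⟩ := Metric.nhds_basis_closedBall.mem_iff.1 (isOpen_ball.mem_nhds hw)
  obtain ⟨ρ, ⟨r0, r1⟩, r2⟩ := ((Set.Ioo_infinite d0).diff
    (finite_singleton (dist (A.e i (F t).x) w))).nonempty
  have sb : closedBall w ρ ⊆ ball 0 A.R := (closedBall_subset_closedBall r1.le).trans d1
  refine (cw_of_sphere (u := fun s => P275MO.fill A (F s) i) r0 ht (fun s a =>
    (Good.fill (f.good s a.1) a.2).diffContOnCl_ball sb) fun y hy => ?_).mono
    (prod_mono Subset.rfl (subset_univ _))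
  have hb := sb (sphere_subset_closedBall hy)
  have ho : y ∈ off A (F t).x i := (off_iff ht.2).2 ⟨hb, fun a => r2 (by rw [← a]; exact hy.symm)⟩
  refine ⟨(Good.fill (f.good t ht.1) ht.2).continuousOn.continuousAt (isOpen_ball.mem_nhds hb), ?_⟩
  have p : ContinuousWithinAt (fun p : T × ℂ => A.e i (F p.1).x)
      ({t | t ∈ V ∧ (F t).x ∈ (A.e i).source} ×ˢ univ) (t, y) :=
    ContinuousWithinAt.comp (f := Prod.fst) (x := (t, y)) (FamOn.p f i t ht) continuousWithinAt_fst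
      fun _ a => a.1
  have e : ∀ᶠ p : T × ℂ in 𝓝[{t | t ∈ V ∧ (F t).x ∈ (A.e i).source} ×ˢ univ] (t, y),
      p.1 ∈ V ∧ p.2 ∈ off A (F p.1).x i := by
    filter_upwards [self_mem_nhdsWithin, (continuousWithinAt_snd.sub p).eventually_ne
      (sub_ne_zero.2 ((off_iff ht.2).1 ho).2),
      continuousWithinAt_snd.eventually (isOpen_ball.mem_nhds hb)] with q a b c
    exact ⟨a.1.1, (off_iff a.1.2).2 ⟨c, sub_ne_zero.1 b⟩⟩
  exact ((continuousWithinAt_snd.sub p).smul ((f.a i (t, y) ⟨ht.1, ho⟩).mono_of_mem_nhdsWithin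
    e)).congr_of_eventuallyEq (e.mono fun q a => fill_off a.2.2) (fill_off ho.2)

theorem FamOn.src_open (f : FamOn A l F V) (hV : IsOpen V) (i : Fin A.N) :
    IsOpen {t | t ∈ V ∧ (F t).x ∈ (A.e i).source} :=
  f.x.isOpen_inter_preimage hV (A.e i).open_source

theorem FamOn.off_open (f : FamOn A l F V) (hV : IsOpen V) (i : Fin A.N) :
    IsOpen {p : T × ℂ | p.1 ∈ V ∧ p.2 ∈ off A (F p.1).x i} := by
  have c : ContinuousOn (fun p : T × ℂ => ((A.e i).symm p.2, (F p.1).x)) (V ×ˢ ball 0 A.R) :=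
    ((cont_symm i).comp continuousOn_snd fun _ a => a.2).prodMk
      (f.x.comp continuousOn_fst fun _ a => a.1)
  have := c.isOpen_inter_preimage (hV.prod isOpen_ball) isClosed_diagonal.isOpen_compl
  exact (Set.ext fun p => and_assoc : _ = _) ▸ this

theorem HFamOn.fill (f : HFamOn A l G W) (hW : IsOpen W) (i : Fin A.N) :
    DifferentiableOn ℂ (fun p : E × ℂ => fill A (G p.1) i p.2)
      ({t | t ∈ W ∧ (G t).x ∈ (A.e i).source} ×ˢ ball 0 A.R) := by
  rintro ⟨t, w⟩ ⟨ht, hw⟩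
  have o := FamOn.src_open f.toFamOn hW i
  have c : ContinuousAt (fun q : ℂ × E => q.1 + A.e i (G q.2).x) (w - A.e i (G t).x, t) :=
    continuousAt_fst.add (ContinuousAt.comp (f := Prod.snd) (x := (w - A.e i (G t).x, t))
      ((FamOn.p f.toFamOn i).continuousAt (o.mem_nhds ht)) continuousAt_snd)
  obtain ⟨U, V, a1, a2, a3, a4, a5⟩ := mem_nhds_prod_iff'.1 (inter_mem
    (c ((isOpen_ball (x := (0 : ℂ)) (ε := A.R)).mem_nhds (by simpa using hw))) (continuousAt_snd (o.mem_nhds ht)))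
  have m : ∀ u ∈ U, ∀ s ∈ V, (s ∈ W ∧ (G s).x ∈ (A.e i).source) ∧
      u + A.e i (G s).x ∈ ball (0 : ℂ) A.R := fun u a s b => (a5 (mk_mem_prod a b)).symm
  have hp : DifferentiableOn ℂ (fun s => A.e i (G s).x) V := (f.hx i).mono fun s b => (m _ a2 s b).1
  have d := P272.GEO.differentiableAt_joint a1 a3
    (G := fun u s => P275MO.fill A (G s) i (u + A.e i (G s).x))
    ((FamOn.fill f.toFamOn i).comp (f := fun q : ℂ × E => (q.2, q.1 + A.e i (G q.2).x))
      (continuousOn_snd.prodMk (continuousOn_fst.add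
        (hp.continuousOn.comp continuousOn_snd fun _ a => a.2))) fun q a => m _ a.1 _ a.2)
    (fun s b => (Good.fill (f.good s (m _ a2 s b).1.1) (m _ a2 s b).1.2).comp
      (differentiableOn_id.add_const _) fun u a => (m u a s b).2) (fun u a => ?_) a2 a4
  · refine (DifferentiableAt.congr_of_eventuallyEq (d.comp (t, w)
      (f := fun p : E × ℂ => (p.2 - A.e i (G p.1).x, p.1)) ((differentiableAt_snd.sub
        (DifferentiableAt.comp (f := Prod.fst) (t, w) (hp.differentiableAt (a3.mem_nhds a4))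
          differentiableAt_fst)).prodMk
          differentiableAt_fst)) (Eventually.of_forall fun p => ?_)).differentiableWithinAt
    simp
  rcases eq_or_ne u 0 with rfl | u0
  · have s := (f.hσ i).mono fun s b => (m _ a s b).1
    exact ((s.mul (f.hR.mono fun s b => (m _ a s b).1.1)).mul (do_inv s fun s b =>
      (f.good s (m _ a s b).1.1).fr i (m _ a s b).1.2)).congr fun s b => by
        rw [zero_add, fill_at (m _ a s b).1.2]; rfl
  · have q : ∀ s ∈ V, u + A.e i (G s).x ∈ off A (G s).x i := fun s b =>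
      (off_iff (m u a s b).1.2).2 ⟨(m u a s b).2, by simpa using u0⟩
    exact (((f.ha i).comp (f := fun s => (s, u + A.e i (G s).x)) (differentiableOn_id.prodMk
      (hp.const_add u)) fun s b => ⟨(m u a s b).1.1, q s b⟩).const_smul u).congr fun s b => by
        rw [fill_off (q s b).2, add_sub_cancel_right]; rfl

/-! ### gauge transformations -/

/-- the pull-back of `z` along the isomorphism `Φ` from the bundle `g` to the bundle of `z` -/
def gau (A : At C) (g : Cy A (Mn n)) (Φ : Fm A (Mn n)) (z : Dat C A.N n) : Dat C A.N n :=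
  ⟨z.lam, z.x, g, fun i w => (Φ i w)⁻¹ * (z.lam • deriv (Φ i) w + z.a i w * Φ i w),
    fun i => (Φ i (A.e i z.x))⁻¹ * z.σ i, z.R⟩

theorem gauge_eq (Φ : Fm A (Mn n)) (z : Dat C A.N n) : gauge A Φ z = gau A (fc A Φ z.g) Φ z := rfl

theorem isoBy_gau (hΦ : A.Hl Φ) (d : ∀ i, ∀ w ∈ ball (0 : ℂ) A.R, (Φ i w).det ≠ 0)
    (e : ∀ i j, ∀ w ∈ A.O i j, Φ i w * g i j w = z.g i j w * Φ j (A.tr i j w)) :
    IsoBy A (gau A g Φ z) z Φ 1 :=
  ⟨⟨rfl, rfl, hΦ, e, fun i w a => (mul_nonsing_inv_cancel_left _ _ (d i w a.1).isUnit).symm⟩, d,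
    fun i a => (mul_nonsing_inv_cancel_left _ _ (d i _ (map_src a)).isUnit).trans (mul_one _).symm⟩

theorem good_gau {c : ℂ} (h : Good A l z) (hg : A.Cc g) (hΦ : A.Hl Φ) (c0 : c ≠ 0)
    (d : ∀ i, ∀ w ∈ ball (0 : ℂ) A.R, (Φ i w).det = c)
    (e : ∀ i j, ∀ w ∈ A.O i j, Φ i w * g i j w = z.g i j w * Φ j (A.tr i j w)) :
    Good A l (gau A g Φ z) := by
  have d0 : ∀ i, ∀ w ∈ ball (0 : ℂ) A.R, (Φ i w).det ≠ 0 := fun i w a => d i w a ▸ c0
  refine ⟨hg, fun i j w a => ?_, fun i w a => ?_, fun i w a => ?_, fun i j w a b => ?_,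
    fun i a => ?_, fun i j (a : z.x ∈ _) (b : z.x ∈ _) => ?_, fun i (a : z.x ∈ _) => ?_⟩
  · have := congrArg det (e i j w a)
    rw [Matrix.det_mul, Matrix.det_mul, d i w a.1, d j _ (tr_ball a), h.det i j w a, mul_comm] at this
    exact mul_right_cancel₀ c0 this
  · have p := hΦ.an a.1 i
    exact (an_mul (an_inv p (d0 i w a.1)) ((an_msmul z.lam p.deriv).add
      (an_mul (Good.an h a) p))).differentiableAt.differentiableWithinAt
  · have p := (deriv_det (hΦ.an a.1 i) (d0 i w a.1)).symm.trans ((EventuallyEq.deriv_eq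
      (eventually_of_mem (isOpen_ball.mem_nhds a.1) (d i))).trans (deriv_const w c))
    show trace (_ * _) = 0
    rw [mul_add, trace_add, mul_smul_comm, trace_smul, (mul_eq_zero.1 p).resolve_left (d0 i w a.1),
      ← mul_assoc, trace_mul_cycle, mul_nonsing_inv _ (d0 i w a.1).isUnit, one_mul, h.tr i w a,
      smul_zero, zero_add]
  · obtain ⟨k, hk⟩ := h.law i j w a b
    refine ⟨k, ((isUnit_iff_isUnit_det _).2 (d0 i w a.1).isUnit).mul_right_injective ?_⟩
    have p : deriv (Φ i) w * g i j w + Φ i w * deriv (g i j) w =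
        deriv (z.g i j) w * Φ j (A.tr i j w) + z.g i j w * A.d i j w • deriv (Φ j) (A.tr i j w) :=
      ((hΦ.an a.1 i).differentiableAt.hasDerivAt.mul (hg.an a).differentiableAt.hasDerivAt).unique
        (((h.cc.an a).differentiableAt.hasDerivAt.mul ((hΦ.an (tr_ball a)
          j).differentiableAt.hasDerivAt.scomp w (has_tr a))).congr_of_eventuallyEq
          (eventually_of_mem (O_nhds a) (e i j)))
    have q := congrArg (· * Φ j (A.tr i j w)) hk
    have p' := congrArg (z.lam • ·) p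
    show Φ i w * (_ * _ * g i j w + z.lam • deriv (g i j) w) =
      Φ i w * (A.d i j w • (g i j w * (_ * _)) + k • g i j w)
    rw [mul_add (Φ i w), mul_add (Φ i w), mul_assoc, mul_nonsing_inv_cancel_left _ _ (d0 i w a.1).isUnit,
      mul_smul_comm (A.d i j w), ← mul_assoc (Φ i w), e i j w a, mul_assoc (z.g i j w),
      mul_nonsing_inv_cancel_left _ _ (d0 j _ (tr_ball a)).isUnit]
    simp only [mul_add, add_mul, smul_add, mul_smul_comm, smul_mul_assoc, mul_assoc, e i j w a,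
      smul_comm z.lam (A.d i j w)] at p' q ⊢
    linear_combination (norm := module) p' + q
  · show det (_ * _) ≠ 0
    rw [Matrix.det_mul]
    exact mul_ne_zero (isUnit_nonsing_inv_det _ (d0 i _ (map_src a)).isUnit).ne_zero (h.fr i a)
  · have p := e i j _ (mem_O a b)
    rw [tr_e a] at p
    show _ * z.σ i = g i j (A.e i z.x) * (_ * z.σ j)
    rw [h.frc i j a b, ← mul_nonsing_inv_cancel_right _ (z.g i j _) (d0 j _ (map_src b)).isUnit,
      ← p, mul_assoc, mul_assoc, nonsing_inv_mul_cancel_left _ _ (d0 i _ (map_src a)).isUnit]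
  · have an := hΦ.an (map_src a) i
    have u := (d0 i _ (map_src a)).isUnit
    have c : Tendsto (Φ i) (𝓝[≠] (A.e i z.x)) (𝓝 (Φ i (A.e i z.x))) :=
      an.continuousAt.mono_left nhdsWithin_le_nhds
    have q : Tendsto (fun w => (w - A.e i z.x) • z.lam • deriv (Φ i) w) (𝓝[≠] (A.e i z.x))
        (𝓝 ((A.e i z.x - A.e i z.x) • z.lam • deriv (Φ i) (A.e i z.x))) :=
      ((continuousAt_id.sub continuousAt_const).smul
        (an.deriv.continuousAt.const_smul z.lam)).mono_left nhdsWithin_le_nhds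
    have := ((ca_inv u.ne_zero).tendsto.comp c).mul (q.add ((h.pole i a).mul c))
    rw [sub_self, zero_smul, zero_add] at this
    show Tendsto (fun w => (w - A.e i z.x) • ((Φ i w)⁻¹ * (z.lam • deriv (Φ i) w + z.a i w * Φ i w)))
      (𝓝[≠] (A.e i z.x)) (𝓝 (_ * z.σ i * z.R * (_ * z.σ i)⁻¹))
    rw [Matrix.mul_inv_rev, nonsing_inv_nonsing_inv _ u]
    refine (this.congr fun w => ?_).mono_right (le_of_eq (congrArg _ ?_))
    · simp only [Function.comp_apply, smul_mul_assoc, ← smul_add, mul_smul_comm]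
    · simp only [mul_assoc]

theorem fc_law (d : ∀ i, ∀ w ∈ ball (0 : ℂ) A.R, (Φ i w).det ≠ 0) : ∀ i j, ∀ w ∈ A.O i j,
    Φ i w * fc A Φ g i j w = g i j w * Φ j (A.tr i j w) := fun i j w a => by
  rw [fc, mul_assoc, mul_nonsing_inv_cancel_left _ _ (d i w a.1).isUnit]

theorem cc_fc (hg : A.Cc g) (hΦ : A.Hl Φ) (d : ∀ i, ∀ w ∈ ball (0 : ℂ) A.R, (Φ i w).det ≠ 0) :
    A.Cc (fc A Φ g) :=
  ⟨fun i j w a => (an_mul (an_mul (an_inv (hΦ.an a.1 i) (d i w a.1)) (hg.an a))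
      ((hΦ.an (tr_ball a) j).comp (an_tr a))).differentiableAt.differentiableWithinAt,
    fun i w a => by rw [fc, hg.one i w a, mul_one, tr_self a, nonsing_inv_mul _ (d i w a).isUnit],
    fun i j k w a b => by
      simp only [fc, hg.mul i j k w a b, tr_tr a, mul_assoc,
        mul_nonsing_inv_cancel_left _ _ (d j _ (tr_ball a)).isUnit]⟩

theorem Good.gauge {c : ℂ} (h : Good A l z) (hΦ : A.Hl Φ) (c0 : c ≠ 0)
    (d : ∀ i, ∀ w ∈ ball (0 : ℂ) A.R, (Φ i w).det = c) : Good A l (gauge A Φ z) :=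
  have d0 : ∀ i, ∀ w ∈ ball (0 : ℂ) A.R, (Φ i w).det ≠ 0 := fun i w a => d i w a ▸ c0
  good_gau h (cc_fc h.cc hΦ d0) hΦ c0 d (fc_law d0)

theorem isoBy_gauge (hΦ : A.Hl Φ) (d : ∀ i, ∀ w ∈ ball (0 : ℂ) A.R, (Φ i w).det ≠ 0) :
    IsoBy A (gauge A Φ z) z Φ 1 := isoBy_gau hΦ d (fc_law d)

/-- an isomorphism of bundles with the same determinant has a constant determinant -/
theorem det_const [ConnectedSpace C] {g' : Cy A (Mn n)} (hl : A.Cc l) (hΦ : A.Hl Φ)
    (h : ∀ i j, ∀ w ∈ A.O i j, (g i j w).det = l i j w)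
    (h' : ∀ i j, ∀ w ∈ A.O i j, (g' i j w).det = l i j w)
    (e : ∀ i j, ∀ w ∈ A.O i j, Φ i w * g i j w = g' i j w * Φ j (A.tr i j w)) :
    ∃ c : ℂ, ∀ i, ∀ w ∈ ball (0 : ℂ) A.R, (Φ i w).det = c := by
  obtain ⟨i, w, hw⟩ := P275KR.Sb.ex_pt A
  refine ⟨_, fun j y hy => Fn.hol_const1 (u := fun i w => (Φ i w).det) (fun i j w a => ?_)
    (hl_of fun i w a => an_det (hΦ.an a i)) hw i j hy⟩
  have := congrArg det (e i j w a)
  rw [Matrix.det_mul, Matrix.det_mul, h i j w a, h' i j w a, mul_comm] at this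
  exact mul_left_cancel₀ (hl.ne a) this

theorem famOn_gau {Φ : T → Fm A (Mn n)} {g : T → Cy A (Mn n)} (f : FamOn A l F V)
    (h : ∀ t ∈ V, Good A l (gau A (g t) (Φ t) (F t))) (hΦ : ∀ t ∈ V, A.Hl (Φ t))
    (d : ∀ t ∈ V, ∀ i, ∀ w ∈ ball (0 : ℂ) A.R, (Φ t i w).det ≠ 0)
    (c : ∀ i, ContinuousOn (fun p : T × ℂ => Φ p.1 i p.2) (V ×ˢ ball 0 A.R))
    (cg : ∀ i j, ContinuousOn (fun p : T × ℂ => g p.1 i j p.2) (V ×ˢ A.O i j)) :
    FamOn A l (fun t => gau A (g t) (Φ t) (F t)) V := by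
  refine ⟨h, f.lam, f.x, f.R, cg, fun i => ?_, fun i => (co_inv ((c i).comp
    (f := fun t => (t, A.e i (F t).x)) (continuousOn_id.prodMk (FamOn.p f i)) fun t a =>
      ⟨a.1, map_src a.2⟩) fun t a => d t a.1 i _ (map_src a.2)).mul (f.σ i)⟩
  have s : {p : T × ℂ | p.1 ∈ V ∧ p.2 ∈ off A (F p.1).x i} ⊆ V ×ˢ ball 0 A.R :=
    fun _ a => ⟨a.1, a.2.1⟩
  exact (co_inv ((c i).mono s) fun p a => d _ a.1 i _ a.2.1).mul
    (((f.lam.comp continuousOn_fst fun _ a => a.1).smul ((P272.GEO.continuousOn_deriv_of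
      isOpen_ball (c i) fun t a => hΦ t a i).mono s)).add ((f.a i).mul ((c i).mono s)))

theorem FamOn.gauge {Φ : T → Fm A (Mn n)} {k : T → ℂ} (f : FamOn A l F V)
    (hΦ : ∀ t ∈ V, A.Hl (Φ t)) (k0 : ∀ t ∈ V, k t ≠ 0)
    (d : ∀ t ∈ V, ∀ i, ∀ w ∈ ball (0 : ℂ) A.R, (Φ t i w).det = k t)
    (c : ∀ i, ContinuousOn (fun p : T × ℂ => Φ p.1 i p.2) (V ×ˢ ball 0 A.R)) :
    FamOn A l (fun t => gauge A (Φ t) (F t)) V :=
  have d0 : ∀ t ∈ V, ∀ i, ∀ w ∈ ball (0 : ℂ) A.R, (Φ t i w).det ≠ 0 :=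
    fun t a i w b => d t a i w b ▸ k0 t a
  famOn_gau f (fun t a => Good.gauge (f.good t a) (hΦ t a) (k0 t a) (d t a)) hΦ d0 c fun i j =>
    ((co_inv ((c i).mono fun _ a => ⟨a.1, a.2.1⟩) fun p a => d0 _ a.1 i _ a.2.1).mul (f.g i j)).mul
      ((c j).comp (f := fun p : T × ℂ => (p.1, A.tr i j p.2)) (continuousOn_fst.prodMk
        ((A.hol i j).continuousOn.comp continuousOn_snd fun _ a => a.2)) fun _ a =>
          ⟨a.1, tr_ball a.2⟩)

/-- the derivative in the last variable is jointly holomorphic -/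
theorem do_deriv {X : Type} [NormedAddCommGroup X] [NormedSpace ℂ X] [CompleteSpace X]
    {u : E → ℂ → X} {S : Set (E × ℂ)} (hS : IsOpen S)
    (h : DifferentiableOn ℂ (fun p : E × ℂ => u p.1 p.2) S) :
    DifferentiableOn ℂ (fun p : E × ℂ => deriv (u p.1) p.2) S :=
  (P281.MF.differentiableOn_fderiv_apply hS h (0, 1)).congr fun p a =>
    ((h.differentiableAt (hS.mem_nhds a)).hasFDerivAt.comp_hasDerivAt (f := fun y => (p.1, y)) p.2
      ((hasDerivAt_const _ _).prodMk (hasDerivAt_id _))).deriv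

theorem hfamOn_gau {Φ : E → Fm A (Mn n)} {g : E → Cy A (Mn n)} (f : HFamOn A l G W) (hW : IsOpen W)
    (h : ∀ t ∈ W, Good A l (gau A (g t) (Φ t) (G t)))
    (d : ∀ t ∈ W, ∀ i, ∀ w ∈ ball (0 : ℂ) A.R, (Φ t i w).det ≠ 0)
    (c : ∀ i, DifferentiableOn ℂ (fun p : E × ℂ => Φ p.1 i p.2) (W ×ˢ ball 0 A.R))
    (cg : ∀ i j, DifferentiableOn ℂ (fun p : E × ℂ => g p.1 i j p.2) (W ×ˢ A.O i j)) :
    HFamOn A l (fun t => gau A (g t) (Φ t) (G t)) W := by
  refine ⟨famOn_gau f.toFamOn h (fun t a i => (c i).comp (f := fun w => (t, w))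
    ((differentiableOn_const _).prodMk differentiableOn_id) fun w b => ⟨a, b⟩) d
    (fun i => (c i).continuousOn) fun i j => (cg i j).continuousOn, f.hlam, f.hx, f.hR, cg,
    fun i => ?_, fun i => (do_inv ((c i).comp (f := fun t => (t, A.e i (G t).x))
      (differentiableOn_id.prodMk (f.hx i)) fun t a => ⟨a.1, map_src a.2⟩)
      fun t a => d t a.1 i _ (map_src a.2)).mul (f.hσ i)⟩
  have s : {p : E × ℂ | p.1 ∈ W ∧ p.2 ∈ off A (G p.1).x i} ⊆ W ×ˢ ball 0 A.R :=
    fun _ a => ⟨a.1, a.2.1⟩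
  exact (do_inv ((c i).mono s) fun p a => d _ a.1 i _ a.2.1).mul
    (((f.hlam.comp differentiableOn_fst fun _ a => a.1).smul
      ((do_deriv (u := fun t => Φ t i) (hW.prod isOpen_ball) (c i)).mono s)).add
      ((f.ha i).mul ((c i).mono s)))

theorem HFamOn.gauge {Φ : E → Fm A (Mn n)} {k : E → ℂ} (f : HFamOn A l G W) (hW : IsOpen W)
    (k0 : ∀ t ∈ W, k t ≠ 0) (d : ∀ t ∈ W, ∀ i, ∀ w ∈ ball (0 : ℂ) A.R, (Φ t i w).det = k t)
    (c : ∀ i, DifferentiableOn ℂ (fun p : E × ℂ => Φ p.1 i p.2) (W ×ˢ ball 0 A.R)) :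
    HFamOn A l (fun t => gauge A (Φ t) (G t)) W :=
  have d0 : ∀ t ∈ W, ∀ i, ∀ w ∈ ball (0 : ℂ) A.R, (Φ t i w).det ≠ 0 :=
    fun t a i w b => d t a i w b ▸ k0 t a
  hfamOn_gau f hW (fun t a => Good.gauge (f.good t a) (fun i => (c i).comp (f := fun w => (t, w))
    ((differentiableOn_const _).prodMk differentiableOn_id) fun w b => ⟨a, b⟩) (k0 t a) (d t a))
    d0 c fun i j =>
    ((do_inv ((c i).mono fun _ a => ⟨a.1, a.2.1⟩) fun p a => d0 _ a.1 i _ a.2.1).mul
      (f.hg i j)).mul ((c j).comp (f := fun p : E × ℂ => (p.1, A.tr i j p.2))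
        (differentiableOn_fst.prodMk ((A.hol i j).comp differentiableOn_snd fun _ a => a.2))
        fun _ a => ⟨a.1, tr_ball a.2⟩)

omit [T2Space C] in
theorem HFamOn.comp {E' : Type} [NormedAddCommGroup E'] [NormedSpace ℂ E'] (f : HFamOn A l G W)
    {u : E' → E} {W' : Set E'} (hu : DifferentiableOn ℂ u W') (m : MapsTo u W' W) :
    HFamOn A l (fun s => G (u s)) W' :=
  have c : ∀ {s : Set (E' × ℂ)}, (∀ p ∈ s, p.1 ∈ W') →
      DifferentiableOn ℂ (fun p : E' × ℂ => (u p.1, p.2)) s := fun a =>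
    (hu.comp differentiableOn_fst a).prodMk differentiableOn_snd
  ⟨FamOn.comp f.toFamOn hu.continuousOn m, f.hlam.comp hu m,
    fun i => (f.hx i).comp (hu.mono fun _ a => a.1) fun _ a => ⟨m a.1, a.2⟩, f.hR.comp hu m,
    fun i j => (f.hg i j).comp (c fun _ a => a.1) fun _ a => ⟨m a.1, a.2⟩,
    fun i => (f.ha i).comp (c fun _ a => a.1) fun _ a => ⟨m a.1, a.2⟩,
    fun i => (f.hσ i).comp (hu.mono fun _ a => a.1) fun _ a => ⟨m a.1, a.2⟩⟩

end Vale.Agent.P275MB
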