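import Vale.Agent.P275MO.Props
import Vale.Agent.P275KR.Sb
import Vale.Agent.P275DG.Main

/-!
P275 (helper16): framed logarithmic connections, change of the radius, maps.
-/

set_option linter.all false

open scoped Topology Matrix.Norms.Operator ContDiff
open Set Filter Metric Matrix
open Vale.Agent.P281Z.Hm Vale.Agent.P275GC Vale.Agent.P275GC.At Vale.Agent.P275MO
open Vale.Agent.P275NA (Fm Cy Mn Mr FrAt degS cvS)
open Vale.Agent.P275KR (Sp)

noncomputable section

namespace Vale.Agent.P275MB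

variable {C : Type} [TopologicalSpace C] {n k : ℕ} {A : At C} {l : Cy A ℂ} {i j : Fin A.N} {w : ℂ}
  {z z' z'' : Dat C A.N n} {φ ψ : Fm A (Mn n)} {h h' : Mn n} {x : C} {S S' : Fm A (Sp n)}
  {r r' : ℝ} {h1 : 1 < r} {h2 : r ≤ A.R} {H : Subalgebra ℂ (Mn n)}

/-! ### iterated restrictions -/

/-- the charts of an atlas -/
structure Ch (C : Type) [TopologicalSpace C] (N : ℕ) (R : ℝ) where
  e : Fin N → OpenPartialHomeomorph C ℂ
  tgt : ∀ i, (e i).target = ball 0 R
  cov : ∀ x, ∃ i, x ∈ (e i).source ∧ ‖e i x‖ < 1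
  hol : ∀ i j, DifferentiableOn ℂ (fun z => e j ((e i).symm z))
    (ball 0 R ∩ (e i).symm ⁻¹' (e j).source)

/-- the charts of `A` -/
def ch (A : At C) : Ch C A.N A.R := ⟨A.e, A.tgt, A.cov, A.hol⟩

/-- the atlas with given charts -/
def Ch.at {N : ℕ} {R : ℝ} (E : Ch C N R) (h : 1 < R) : At C := ⟨N, R, h, E.e, E.tgt, E.cov, E.hol⟩

theorem Ch.ext {N : ℕ} {R : ℝ} {E E' : Ch C N R} (h : E.e = E'.e) : E = E' := by
  cases E; cases E'; cases h; rfl

theorem src_res : x ∈ ((A.res r h1 h2).e i).source ↔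
    x ∈ (A.e i).source ∧ A.e i x ∈ ball (0 : ℂ) r := Iff.rfl

theorem e_rr (h1' : 1 < r') (h3 : r' ≤ r) :
    ((A.res r h1 h2).res r' h1' h3).e = (A.res r' h1' (h3.trans h2)).e := funext fun i =>
  OpenPartialHomeomorph.ext _ _ (fun _ => rfl) (fun _ => rfl) (Set.ext fun x =>
    ⟨fun a => ⟨a.1.1, a.2⟩, fun a => ⟨⟨a.1, ball_subset_ball h3 a.2⟩, a.2⟩⟩)

theorem e_rs : (A.res A.R A.hR le_rfl).e = A.e := funext fun i =>
  OpenPartialHomeomorph.ext _ _ (fun _ => rfl) (fun _ => rfl) (Set.ext fun x =>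
    ⟨fun a => a.1, fun a => ⟨a, map_src a⟩⟩)

/-- transport along `(A.res r).res r' = A.res r'`; use with `P E := Q (E.at h1') ..` -/
theorem rr (h1' : 1 < r') (h3 : r' ≤ r) (P : Ch C A.N r' → Prop) :
    P (ch ((A.res r h1 h2).res r' h1' h3)) ↔ P (ch (A.res r' h1' (h3.trans h2))) := by
  have := e_rr (A := A) (h1 := h1) (h2 := h2) h1' h3
  rw [Ch.ext (N := A.N) (R := r') (E := ch ((A.res r h1 h2).res r' h1' h3))
    (E' := ch (A.res r' h1' (h3.trans h2))) this]

/-- transport along `A.res A.R = A` -/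
theorem rs (P : Ch C A.N A.R → Prop) : P (ch (A.res A.R A.hR le_rfl)) ↔ P (ch A) := by
  have := e_rs (A := A)
  rw [Ch.ext (N := A.N) (R := A.R) (E := ch (A.res A.R A.hR le_rfl)) (E' := ch A) this]

theorem off_res : off (A.res r h1 h2) x i ⊆ off A x i := fun _ a => ⟨ball_subset_ball h2 a.1, a.2⟩

theorem off_open [T2Space C] (x : C) (i : Fin A.N) : IsOpen (off A x i) :=
  (cont_symm i).isOpen_inter_preimage isOpen_ball isOpen_compl_singleton

theorem off_tr (h : w ∈ A.O i j) (hx : (A.e i).symm w ≠ x) : A.tr i j w ∈ off A x j :=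
  ⟨tr_ball h, by rwa [symm_tr h]⟩

theorem off_ev (hx : x ∈ (A.e i).source) : ∀ᶠ w in 𝓝[≠] (A.e i x), w ∈ off A x i := by
  filter_upwards [nhdsWithin_le_nhds (isOpen_ball.mem_nhds (map_src hx)), self_mem_nhdsWithin]
    with w a b using ⟨a, fun c => b (by rw [← c, rinv a]; rfl)⟩

theorem Good.res (g : Good A l z) : Good (A.res r h1 h2) l z :=
  ⟨g.cc.res, fun i j w a => g.det i j w (res_O.1 a).1, fun i => (g.hol i).mono off_res,
    fun i w a => g.tr i w (off_res a), fun i j w a => g.law i j w (res_O.1 a).1,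
    fun i a => g.fr i a.1, fun i j a b => g.frc i j a.1 b.1, fun i a => g.pole i a.1⟩

theorem Hom.res (f : Hom A z z' φ) : Hom (A.res r h1 h2) z z' φ :=
  ⟨f.lam, f.x, f.hol.res, fun i j w a => f.law i j w (res_O.1 a).1,
    fun i w a => f.con i w (off_res a)⟩

theorem IsoBy.res (f : IsoBy A z z' φ h) : IsoBy (A.res r h1 h2) z z' φ h :=
  ⟨Hom.res f.toHom, fun i w a => f.det i w (ball_subset_ball h2 a), fun i a => f.fr i a.1⟩

theorem Good.mono (g : Good (A.res r h1 h2) l z) (h1' : 1 < r') (h3 : r' ≤ r) :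
    Good (A.res r' h1' (h3.trans h2)) l z :=
  have := Good.res (h1 := h1') (h2 := h3) g
  (rr h1' h3 fun E => Good (E.at h1') l z).1 this

theorem IsoBy.mono (f : IsoBy (A.res r h1 h2) z z' φ h) (h1' : 1 < r') (h3 : r' ≤ r) :
    IsoBy (A.res r' h1' (h3.trans h2)) z z' φ h :=
  have := IsoBy.res (h1 := h1') (h2 := h3) f
  (rr h1' h3 fun E => IsoBy (E.at h1') z z' φ h).1 this

theorem Hom.mono (f : Hom (A.res r h1 h2) z z' φ) (h1' : 1 < r') (h3 : r' ≤ r) :
    Hom (A.res r' h1' (h3.trans h2)) z z' φ :=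
  have := Hom.res (h1 := h1') (h2 := h3) f
  (rr h1' h3 fun E => Hom (E.at h1') z z' φ).1 this

section fam

variable {T T' : Type} [TopologicalSpace T] [TopologicalSpace T'] {F : T → Dat C A.N n}
  {V : Set T} {t : T}

theorem FamOn.res (f : FamOn A l F V) : FamOn (A.res r h1 h2) l F V :=
  ⟨fun t a => Good.res (f.good t a), f.lam, f.x, f.R,
    fun i j => (f.g i j).mono fun _ a => ⟨a.1, (res_O.1 a.2).1⟩,
    fun i => (f.a i).mono fun _ a => ⟨a.1, off_res a.2⟩,
    fun i => (f.σ i).mono fun _ a => ⟨a.1, a.2.1⟩⟩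

theorem FamOn.mono (f : FamOn (A.res r h1 h2) l F V) (h1' : 1 < r') (h3 : r' ≤ r) :
    FamOn (A.res r' h1' (h3.trans h2)) l F V :=
  have := FamOn.res (h1 := h1') (h2 := h3) f
  (rr h1' h3 fun E => FamOn (E.at h1') l F V).1 this

theorem FamOn.comp (f : FamOn A l F V) {u : T' → T} {V' : Set T'} (hu : ContinuousOn u V')
    (m : MapsTo u V' V) : FamOn A l (fun s => F (u s)) V' :=
  have c : ∀ {s : Set (T' × ℂ)}, (∀ p ∈ s, p.1 ∈ V') →
      ContinuousOn (fun p : T' × ℂ => (u p.1, p.2)) s := fun a =>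
    (hu.comp continuousOn_fst a).prodMk continuousOn_snd
  ⟨fun t a => f.good _ (m a), f.lam.comp hu m, f.x.comp hu m, f.R.comp hu m,
    fun i j => (f.g i j).comp (c fun _ a => a.1) fun _ a => ⟨m a.1, a.2⟩,
    fun i => (f.a i).comp (c fun _ a => a.1) fun _ a => ⟨m a.1, a.2⟩,
    fun i => (f.σ i).comp (hu.mono fun _ a => a.1) fun _ a => ⟨m a.1, a.2⟩⟩

theorem FamOn.sub (f : FamOn A l F V) {V' : Set T} (m : V' ⊆ V) : FamOn A l F V' :=
  FamOn.comp f continuousOn_id m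

theorem FamOn.at (f : FamOn A l F V) (hV : V ∈ 𝓝 t) : FamAt A l F t :=
  ⟨A.R, A.hR, le_rfl, V, hV, FamOn.res f⟩

theorem FamAt.comp {u : T' → T} {s : T'} (f : FamAt A l F (u s))
    (hu : ∀ᶠ s' in 𝓝 s, ContinuousAt u s') : FamAt A l (fun s => F (u s)) s := by
  obtain ⟨r, h1, h2, V, hV, f⟩ := f
  exact ⟨r, h1, h2, _, inter_mem hu (hu.self_of_nhds hV), FamOn.comp f
    (fun _ a => a.1.continuousWithinAt) fun _ a => a.2⟩

theorem FamAt.ev (f : FamAt A l F t) : ∀ᶠ s in 𝓝 t, FamAt A l F s := by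
  obtain ⟨r, h1, h2, V, hV, f⟩ := f
  exact (eventually_mem_nhds_iff.2 hV).mono fun s a => ⟨r, h1, h2, V, a, f⟩

theorem famOn_const (g : Good A l z) (V : Set T) : FamOn A l (fun _ => z) V :=
  ⟨fun _ _ => g, continuousOn_const, continuousOn_const, continuousOn_const,
    fun i j => (g.cc.hol i j).continuousOn.comp continuousOn_snd fun _ a => a.2,
    fun i => (g.hol i).continuousOn.comp continuousOn_snd fun _ a => a.2,
    fun _ => continuousOn_const⟩

end fam

section hfam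

variable {E : Type} [NormedAddCommGroup E] [NormedSpace ℂ E] {F : E → Dat C A.N n} {V : Set E}

theorem HFamOn.res (f : HFamOn A l F V) : HFamOn (A.res r h1 h2) l F V :=
  ⟨FamOn.res f.toFamOn, f.hlam, fun i => (f.hx i).mono fun _ a => ⟨a.1, a.2.1⟩, f.hR,
    fun i j => (f.hg i j).mono fun _ a => ⟨a.1, (res_O.1 a.2).1⟩,
    fun i => (f.ha i).mono fun _ a => ⟨a.1, off_res a.2⟩,
    fun i => (f.hσ i).mono fun _ a => ⟨a.1, a.2.1⟩⟩

theorem HFamOn.mono (f : HFamOn (A.res r h1 h2) l F V) (h1' : 1 < r') (h3 : r' ≤ r) :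
    HFamOn (A.res r' h1' (h3.trans h2)) l F V :=
  have := HFamOn.res (h1 := h1') (h2 := h3) f
  (rr h1' h3 fun E => HFamOn (E.at h1') l F V).1 this

end hfam

/-! ### the transition law -/

theorem deriv_det {f : ℂ → Mn n} (hf : AnalyticAt ℂ f w) (h0 : (f w).det ≠ 0) :
    deriv (fun y => (f y).det) w = (f w).det * trace ((f w)⁻¹ * deriv f w) := by
  have e : wd 1 f w = deriv f w := P275HK.dz_hol hf.differentiableAt
  exact (P275HK.dz_hol (an_det hf).differentiableAt).symm.trans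
    (e ▸ wd_det (P275HK.hol_df hf) h0 1)

theorem deriv_minv {f : ℂ → Mn n} (hf : AnalyticAt ℂ f w) (h0 : (f w).det ≠ 0) :
    deriv (fun y => (f y)⁻¹) w = -((f w)⁻¹ * deriv f w * (f w)⁻¹) := by
  have e : wd 1 f w = deriv f w := P275HK.dz_hol hf.differentiableAt
  exact (P275HK.dz_hol (an_inv hf h0).differentiableAt).symm.trans
    (e ▸ wd_minv (P275HK.hol_df hf) h0 1)

theorem deriv_mulVec {f : ℂ → Mn n} {s : ℂ → Fin n → ℂ} (hf : AnalyticAt ℂ f w)
    (hs : AnalyticAt ℂ s w) :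
    deriv (fun y => f y *ᵥ s y) w = deriv f w *ᵥ s w + f w *ᵥ deriv s w := by
  have e : wd 1 f w = deriv f w := P275HK.dz_hol hf.differentiableAt
  have e' : wd 1 s w = deriv s w := P275HK.dz_hol hs.differentiableAt
  exact (P275HK.dz_hol (an_mulVec hf hs).differentiableAt).symm.trans
    (e ▸ e' ▸ wd_mulVec (P275HK.hol_df hf) (P275HK.hol_df hs) 1)

/-- the law with its scalar -/
theorem Good.law' (g : Good A l z) (h : w ∈ A.O i j) (hx : (A.e i).symm w ≠ z.x) :
    z.a i w * z.g i j w + z.lam • deriv (z.g i j) w =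
      A.d i j w • (z.g i j w * z.a j (A.tr i j w)) +
        ((n : ℂ)⁻¹ * (z.lam * (deriv (l i j) w / l i j w))) • z.g i j w := by
  rcases Nat.eq_zero_or_pos n with rfl | hn
  · exact Subsingleton.elim _ _
  obtain ⟨c, hc⟩ := g.law i j w h hx
  have d0 := g.cc.det.ne h
  have u := d0.isUnit
  have e : deriv (l i j) w = _ := (EventuallyEq.deriv_eq (eventually_of_mem (O_nhds h)
    fun y a => (g.det i j y a).symm)).trans (deriv_det (g.cc.an h) d0)
  have t := congrArg (fun X => trace ((z.g i j w)⁻¹ * X)) hc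
  simp only [Matrix.mul_add, Matrix.mul_smul, trace_add, trace_smul, nonsing_inv_mul _ u,
    nonsing_inv_mul_cancel_left _ _ u, g.tr j _ (off_tr h hx), trace_one, Fintype.card_fin,
    smul_eq_mul] at t
  rw [← Matrix.mul_assoc, trace_mul_cycle, mul_nonsing_inv _ u, Matrix.one_mul,
    g.tr i w ⟨h.1, hx⟩] at t
  have n0 : (n : ℂ) ≠ 0 := mod_cast hn.ne'
  rw [hc, e, ← g.det i j w h, mul_div_cancel_left₀ _ d0]
  congr 2
  field_simp
  linear_combination -t

/-- horizontality is seen in any chart -/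
theorem con_tr (g : Good A l z) (g' : Good A l z') (el : z'.lam = z.lam) (ex : z'.x = z.x)
    (h : w ∈ A.O i j) (hx : (A.e i).symm w ≠ z.x) {u v : ℂ → Mn n} (hu : AnalyticAt ℂ u w)
    (hv : AnalyticAt ℂ v (A.tr i j w))
    (e : ∀ᶠ y in 𝓝 w, u y * z.g i j y = z'.g i j y * v (A.tr i j y))
    (c : z.lam • deriv v (A.tr i j w) + z'.a j (A.tr i j w) * v (A.tr i j w) =
      v (A.tr i j w) * z.a j (A.tr i j w)) :
    z.lam • deriv u w + z'.a i w * u w = u w * z.a i w := by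
  have a := Good.law' g h hx
  have b := Good.law' g' h (ex ▸ hx)
  rw [el] at b
  have d : deriv u w * z.g i j w + u w * deriv (z.g i j) w = deriv (z'.g i j) w * v (A.tr i j w) +
      z'.g i j w * A.d i j w • deriv v (A.tr i j w) := (hu.differentiableAt.hasDerivAt.mul (g.cc.an h).differentiableAt.hasDerivAt).unique
    (((g'.cc.an h).differentiableAt.hasDerivAt.mul
      (hv.differentiableAt.hasDerivAt.scomp w (has_tr h))).congr_of_eventuallyEq e)
  have e0 := e.self_of_nhds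
  refine ((isUnit_iff_isUnit_det _).2 (g.cc.det.ne h).isUnit).mul_left_injective ?_
  show (_ + _) * _ = _ * _
  have a' := congrArg (u w * ·) a
  have b' := congrArg (· * v (A.tr i j w)) b
  have c' := congrArg (fun X => A.d i j w • (z'.g i j w * X)) c
  have d' := congrArg (z.lam • ·) d
  simp only [mul_add, add_mul, smul_add, mul_smul_comm, smul_mul_assoc, Function.comp_apply,
    mul_assoc, e0, smul_comm z.lam (A.d i j w)] at a' b' c' d' ⊢
  rw [← mul_assoc (u w) (z.g i j w), e0, mul_assoc] at a'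
  linear_combination (norm := module) b' + c' + d' - a'

/-- invariance is seen in any chart -/
theorem inv_tr (g : Good A l z) (h : w ∈ A.O i j) (hx : (A.e i).symm w ≠ z.x) {V V' : ℂ → Sp n}
    (e : ∀ᶠ y in 𝓝 w, V y = (V' (A.tr i j y)).map (z.g i j y).mulVecLin)
    (c : ∀ s : ℂ → Fin n → ℂ, AnalyticAt ℂ s (A.tr i j w) → (∀ᶠ y in 𝓝 (A.tr i j w), s y ∈ V' y) →
      z.lam • deriv s (A.tr i j w) + z.a j (A.tr i j w) *ᵥ s (A.tr i j w) ∈ V' (A.tr i j w))
    {s : ℂ → Fin n → ℂ} (hs : AnalyticAt ℂ s w) (m : ∀ᶠ y in 𝓝 w, s y ∈ V y) :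
    z.lam • deriv s w + z.a i w *ᵥ s w ∈ V w := by
  have h' := tr_mem h
  have t : Tendsto (A.tr j i) (𝓝 (A.tr i j w)) (𝓝 w) := by
    simpa only [ContinuousAt, tr_inv h] using (an_tr h').continuousAt
  have an : AnalyticAt ℂ (fun y => z.g j i y *ᵥ s (A.tr j i y)) (A.tr i j w) :=
    an_mulVec (g.cc.an h') (AnalyticAt.comp (by rwa [tr_inv h]) (an_tr h'))
  have b := c _ an (by
    filter_upwards [O_nhds h', t.eventually e, t.eventually m] with y a b c
    obtain ⟨v, p, q⟩ := b ▸ c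
    rw [tr_inv a] at p
    rwa [← q, mulVecLin_apply, mulVec_mulVec, g.cc.inv a, one_mulVec])
  set s' := fun y => z.g j i y *ᵥ s (A.tr j i y)
  have q : ∀ᶠ y in 𝓝 w, s y = z.g i j y *ᵥ s' (A.tr i j y) :=
    eventually_of_mem (O_nhds h) fun y a => by
      simp only [s', mulVec_mulVec, g.cc.inv a, one_mulVec, tr_inv a]
  have d : deriv s w = deriv (z.g i j) w *ᵥ s' (A.tr i j w) +
      z.g i j w *ᵥ (A.d i j w • deriv s' (A.tr i j w)) := by
    have p : AnalyticAt ℂ (fun y => s' (A.tr i j y)) w := an.comp (an_tr h)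
    rw [EventuallyEq.deriv_eq q, deriv_mulVec (g.cc.an h) p,
      ← (an.differentiableAt.hasDerivAt.scomp w (has_tr h)).deriv]
    rfl
  obtain ⟨c, hc⟩ := g.law i j w h hx
  have p : s' (A.tr i j w) ∈ V' (A.tr i j w) := by
    obtain ⟨v, p, q⟩ := e.self_of_nhds ▸ m.self_of_nhds
    simp only [s', tr_inv h]
    rwa [← q, mulVecLin_apply, mulVec_mulVec, g.cc.inv' h, one_mulVec]
  rw [e.self_of_nhds]
  refine ⟨_, add_mem (Submodule.smul_mem _ (A.d i j w) b) (Submodule.smul_mem _ c p), ?_⟩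
  have := congrArg (· *ᵥ s' (A.tr i j w)) hc
  rw [d, q.self_of_nhds]
  simp only [mulVecLin_apply, mulVec_add, add_mulVec, mulVec_smul, smul_mulVec, smul_add,
    ← mulVec_mulVec, smul_comm z.lam (A.d i j w)] at this ⊢
  linear_combination (norm := module) -this

/-! ### stability does not depend on the radius -/

theorem res_degS (g : Cy A (Mn n)) (S : Fm A (Sp n)) :
    degS (A.res r h1 h2) g k S = degS A g k S := by
  show _ * (A.res r h1 h2).int (cvS A k ((A.res r h1 h2).mtM g) S) = _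
  rw [res_int, res_mtM, degS]

theorem sub_res {g : Cy A (Mn n)} (s : P275NA.Sub A g k S) : P275NA.Sub (A.res r h1 h2) g k S :=
  ⟨fun i w a => s.fr i w (ball_subset_ball h2 a), fun i j w a => s.tr i j w (res_O.1 a).1⟩

/-- the transition rule of subspaces -/
def sT (A : At C) (g : Cy A (Mn n)) (i j : Fin A.N) (w : ℂ) (V : Sp n) : Sp n :=
  V.map (g i j w).mulVecLin

theorem sT_mul {g : Cy A (Mn n)} (hg : A.Cc g) : ∀ i j k, ∀ w ∈ A.O i j, w ∈ A.O i k → ∀ y,
    sT A g i k w y = sT A g i j w (sT A g j k (A.tr i j w) y) := fun i j k w a b y => by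
  rw [sT, sT, sT, hg.mul i j k w a b, mulVecLin_mul, Submodule.map_comp]

theorem unit_r (h1 : 1 < r) (b : ‖w‖ < 1) : w ∈ ball (0 : ℂ) r := mem_ball_zero_iff.2 (b.trans h1)

theorem sub_xt {g : Cy A (Mn n)} (hg : A.Cc g) (s : P275NA.Sub (A.res r h1 h2) g k S) :
    P275NA.Sub A g k (A.xt (sT A g) S) where
  fr i w hw := by
    obtain ⟨j, a, b⟩ := ex_unit hw i
    obtain ⟨t, ht⟩ := s.fr j _ (unit_r h1 b)
    refine ⟨fun y => g i j y * t (A.tr i j y), an_mul (hg.an a) (ht.an.comp (an_tr a)),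
      fun u v e => ht.inj (P275HK.inj_of_det (hg.det.ne a) (by
        simpa only [mulVec_mulVec] using e)), ?_⟩
    filter_upwards [xt_ev (sT_mul hg) s.tr a (unit_r h1 b),
      (an_tr a).continuousAt.eventually ht.rg] with y c d
    rw [mulVecLin_mul, LinearMap.range_comp, d, c, sT]
  tr i j w a := xt_tr (sT_mul hg) s.tr a

theorem stab_res (g : Good A l z) : Stab (A.res r h1 h2) l z ↔ Stab A l z := by
  refine ⟨fun s k S a b c d => ?_, fun s k S a b c d => ?_⟩
  · have := s k S a b (sub_res c) fun i w hw => d i w (off_res hw)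
    rwa [res_degS, res_deg] at this
  · have e : degS (A.res r h1 h2) z.g k S = degS A z.g k (A.xt (sT A z.g) S) :=
      (P275KR.degS_congr (A := A.res r h1 h2) fun i w hw =>
        (xt_self (A := A) (T := sT A z.g) (i := i) c.tr hw).symm).trans (res_degS _ _)
    rw [e, res_deg]
    refine s k _ a b (sub_xt g.cc c) fun i w hw u hu m => ?_
    obtain ⟨j, e, f⟩ := ex_unit hw.1 i
    exact inv_tr g e hw.2 (xt_ev (sT_mul g.cc) c.tr e (unit_r h1 f))
      (d j _ ⟨unit_r h1 f, (off_tr e hw.2).2⟩) hu m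

theorem Stab.mono (g : Good (A.res r h1 h2) l z) (s : Stab (A.res r h1 h2) l z) (h1' : 1 < r')
    (h3 : r' ≤ r) : Stab (A.res r' h1' (h3.trans h2)) l z :=
  (rr h1' h3 fun E => Stab (E.at h1') l z).1
    ((stab_res (h1 := h1') (h2 := h3) g).2 s)

theorem Stab.up (g : Good (A.res r h1 h2) l z) (h1' : 1 < r') (h3 : r' ≤ r)
    (s : Stab (A.res r' h1' (h3.trans h2)) l z) : Stab (A.res r h1 h2) l z :=
  (stab_res (h1 := h1') (h2 := h3) g).1
    ((rr h1' h3 fun E => Stab (E.at h1') l z).2 s)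

/-- an object is stable on every atlas on which it is defined -/
theorem IsOb.stab {q : Submodule ℂ (Mn n)} (o : IsOb A l q z) (g : Good (A.res r h1 h2) l z) :
    Stab (A.res r h1 h2) l z := by
  obtain ⟨⟨r', a, b, g', s⟩, -⟩ := o
  rcases le_total r r' with c | c
  · exact Stab.mono g' s h1 c
  · exact Stab.up g a c s

theorem IsOb.stab' {q : Submodule ℂ (Mn n)} (o : IsOb A l q z) (g : Good A l z) : Stab A l z :=
  (stab_res (h1 := A.hR) (h2 := le_rfl) g).1 (IsOb.stab o (Good.res g))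

theorem isOb_of {q : Submodule ℂ (Mn n)} (g : Good A l z) (s : Stab A l z) (hq : z.R ∈ q) :
    IsOb A l q z := ⟨⟨A.R, A.hR, le_rfl, Good.res g, (stab_res g).2 s⟩, hq⟩

/-! ### extension of maps -/

/-- the transition rule of maps -/
def hT (A : At C) (g g' : Cy A (Mn n)) (i j : Fin A.N) (w : ℂ) (X : Mn n) : Mn n :=
  g' i j w * X * g j i (A.tr i j w)

theorem hT_mul {g g' : Cy A (Mn n)} (hg : A.Cc g) (hg' : A.Cc g') :
    ∀ i j k, ∀ w ∈ A.O i j, w ∈ A.O i k → ∀ y,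
      hT A g g' i k w y = hT A g g' i j w (hT A g g' j k (A.tr i j w) y) := fun i j k w a b y => by
  rw [hT, hT, hT, hg'.mul i j k w a b, tr_tr a, hg.mul k j i _ (tr_O b a) (tr_mem b), tr_tr b]
  simp only [mul_assoc]

theorem Hom.tr (f : Hom A z z' φ) (g : A.Cc z.g) : ∀ i j, ∀ w ∈ A.O i j,
    φ i w = hT A z.g z'.g i j w (φ j (A.tr i j w)) := fun i j w a => by
  rw [hT, ← f.law i j w a, mul_assoc, g.inv a, mul_one]

theorem hT_law {g g' : Cy A (Mn n)} (hg : A.Cc g) (a : w ∈ A.O i j) (X : Mn n) :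
    hT A g g' i j w X * g i j w = g' i j w * X := by rw [hT, mul_assoc, hg.inv' a, mul_one]

theorem Hom.xt (g : Good A l z) (g' : Good A l z') (f : Hom (A.res r h1 h2) z z' φ) :
    Hom A z z' (A.xt (hT A z.g z'.g) φ) := by
  have t := Hom.tr f g.cc.res
  have m := hT_mul g.cc g'.cc
  have an : ∀ i, ∀ w ∈ ball (0 : ℂ) A.R, AnalyticAt ℂ (A.xt (hT A z.g z'.g) φ i) w :=
    fun i w hw => by
      obtain ⟨j, a, b⟩ := ex_unit hw i
      exact (an_mul (an_mul (g'.cc.an a) ((f.hol.an (unit_r h1 b) j).comp (an_tr a)))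
        ((g.cc.an (tr_mem a)).comp (an_tr a))).congr (xt_ev m t a (unit_r h1 b)).symm
  refine ⟨f.lam, f.x, fun i w hw => (an i w hw).differentiableAt.differentiableWithinAt,
    fun i j w a => by rw [xt_tr m t a, hT_law g.cc a], fun i w hw => ?_⟩
  obtain ⟨j, a, b⟩ := ex_unit hw.1 i
  refine con_tr g g' f.lam f.x a hw.2 (an i w hw.1) (f.hol.an (unit_r h1 b) j) ?_
    (f.con j _ ⟨unit_r h1 b, (off_tr a hw.2).2⟩)
  filter_upwards [xt_ev m t a (unit_r h1 b), O_nhds a] with y c d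
  rw [c, hT_law g.cc d]

theorem Hom.xt_self (g : Good A l z) (f : Hom (A.res r h1 h2) z z' φ) (hw : w ∈ ball (0 : ℂ) r) :
    A.xt (hT A z.g z'.g) φ i w = φ i w := At.xt_self (Hom.tr f g.cc.res) hw

theorem IsoBy.xt (g : Good A l z) (g' : Good A l z') (f : IsoBy (A.res r h1 h2) z z' φ h) :
    IsoBy A z z' (A.xt (hT A z.g z'.g) φ) h := by
  have t := Hom.tr f.toHom g.cc.res
  have m := hT_mul g.cc g'.cc
  refine ⟨Hom.xt g g' f.toHom, fun i w hw => ?_, fun i hx => ?_⟩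
  · obtain ⟨j, a, b⟩ := ex_unit hw i
    rw [xt_eq m t a (unit_r h1 b), hT, Matrix.det_mul, Matrix.det_mul]
    exact mul_ne_zero (mul_ne_zero (g'.cc.det.ne a) (f.det j _ (unit_r h1 b)))
      (g.cc.det.ne (tr_mem a))
  · obtain ⟨j, a, b⟩ := A.cov z.x
    have c := mem_O hx a
    have e := f.x
    rw [xt_eq m t c (by rw [tr_e hx]; exact unit_r h1 b), g.frc i j hx a, ← mul_assoc,
      hT_law g.cc c, tr_e hx, mul_assoc, g'.frc i j (e ▸ hx) (e ▸ a), e, mul_assoc]
    exact congrArg _ (f.fr j ⟨a, unit_r h1 b⟩)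

theorem iso_iff (g : Good A l z) (g' : Good A l z') :
    Iso A H z z' ↔ ∃ φ h, h ∈ H ∧ IsoBy A z z' φ h :=
  ⟨fun ⟨_, _, _, _, h, a, f⟩ => ⟨_, h, a, IsoBy.xt g g' f⟩,
    fun ⟨φ, h, a, f⟩ => ⟨A.R, A.hR, le_rfl, φ, h, a, IsoBy.res f⟩⟩

theorem iso_res : Iso (A.res r h1 h2) H z z' ↔ Iso A H z z' := by
  refine ⟨fun ⟨r', a, b, φ, h, c, f⟩ => ⟨r', a, b.trans h2, φ, h, c,
    (rr a b fun E => IsoBy (E.at a) z z' φ h).1 f⟩, fun ⟨r', a, b, φ, h, c, f⟩ => ?_⟩
  have d := lt_min h1 a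
  exact ⟨min r r', d, min_le_left _ _, φ, h, c, (rr d (min_le_left r r')
    fun E => IsoBy (E.at d) z z' φ h).2
    (IsoBy.mono f d (min_le_right _ _))⟩

theorem iso_iff' (g : Good (A.res r h1 h2) l z) (g' : Good (A.res r h1 h2) l z') :
    Iso A H z z' ↔ ∃ φ h, h ∈ H ∧ IsoBy (A.res r h1 h2) z z' φ h :=
  iso_res.symm.trans (iso_iff g g')

end Vale.Agent.P275MB
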